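import Vale.Agent.P011.Tpl.H541.SSq
import Vale.Agent.P011.Tpl.H359.StepDefs

/-!
The choices of the square roots in the induction.
-/

open NumberField IsDedekindDomain Module TensorProduct

set_option linter.unusedSectionVars false

namespace Vale.Agent.P011.Tpl.H541

open Vale.Agent.P011.Arith Vale.Agent.P011.Even Vale.Agent.P011.Two Vale.Agent.P011.One
open Vale.Agent.P011.Pow Vale.Agent.P011.Tpl.H359

theorem stepT {l : ℕ} (hl : 3 ≤ l) : StepT (2 * l) := by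
  intro k K D _ _ _ _ _ _ _ _ _ _ _ d s hS hdeg hsg
  have := hS.fin
  obtain ⟨a, t, ht, ha, had, h1, h2, h3, h4, h5⟩ := exists_base3 hS hl hdeg hsg
    (R := ∅) Set.finite_empty
  refine ⟨a, t, ht, ha, had, fun v hv => (h1 v (Or.inr hv)).1, h2, h3, fun v hv => ?_, ?_⟩
  · obtain ⟨z, hz⟩ := h4 v (tdiv_ram (by omega) hdeg (adiv_iff.mp hv))
    rw [hz, WithZero.log_exp]
    exact ⟨z, rfl⟩
  · intro L K' C _ _ _ _ _ _ _ _ _ _ _ _ _ T j hSC hdC h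
    exact h5 L K' C T j _ _ hSC hdC h

theorem stepS {l : ℕ} (hl : 3 ≤ l) : StepS (2 * l) := by
  intro k K D _ _ _ _ _ _ _ _ _ _ _ d s hS hdeg _ a t ht _ _ hpos hre L K' C
    _ _ _ _ _ _ _ _ _ _ _ _ _ T j hSC hdC h hsg
  obtain ⟨N0, h1, h2, h3⟩ := exists_s2' hS hSC h hl hdeg hdC ht hpos hre hsg
  refine ⟨N0, h1, h2, fun b hb hbd hb0 hbN hbR => ?_⟩
  obtain ⟨s₂, hs₂, h4⟩ := h3 b hb hbd hb0 hbN hbR
  refine ⟨s₂, hs₂, ?_⟩
  intro F F' E _ _ _ _ _ _ _ _ _ _ _ _ _ S jE hSE hdE hE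
  exact h4 F F' E S jE _ _ hSE hdE hE

end Vale.Agent.P011.Tpl.H541
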