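import Mathlib

/-!
Splittings of signatures which avoid the values `1` and `n - 1`.
-/

namespace Vale.Agent.P011.Tpl.H541

/-- Splitting a signature between two places. -/
theorem cnt_base {l p : ℕ} (hl : 3 ≤ l) (hp : p ≤ 4 * l) (h1 : p ≠ 1) (h2 : p ≠ 4 * l - 1) :
    ∃ x y, x + y = p ∧ x ≤ 2 * l ∧ y ≤ 2 * l ∧ (x ≠ 1 ∧ x ≠ 2 * l - 1) ∧
      (y ≠ 1 ∧ y ≠ 2 * l - 1) := by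
  by_cases c1 : p ≤ 2 * l
  · by_cases c2 : p = 2 * l - 1
    · refine ⟨2 * l - 3, 2, ?_, ?_, ?_, ⟨?_, ?_⟩, ⟨?_, ?_⟩⟩ <;> omega
    · refine ⟨p, 0, ?_, ?_, ?_, ⟨?_, ?_⟩, ⟨?_, ?_⟩⟩ <;> omega
  · by_cases c2 : p = 2 * l + 1
    · refine ⟨3, 2 * l - 2, ?_, ?_, ?_, ⟨?_, ?_⟩, ⟨?_, ?_⟩⟩ <;> omega
    · refine ⟨p - 2 * l, 2 * l, ?_, ?_, ?_, ⟨?_, ?_⟩, ⟨?_, ?_⟩⟩ <;> omega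

/-- Splitting the signatures at two places among four places. -/
theorem cnt_s {l P Q : ℕ} (hl : 3 ≤ l) (hP : P ≤ 2 * l) (hQ : Q ≤ 2 * l)
    (h1 : P ≠ 1 ∧ P ≠ 2 * l - 1) (h2 : Q ≠ 1 ∧ Q ≠ 2 * l - 1) :
    ∃ a a' b b', (a ≤ l ∧ a' ≤ l ∧ a + a' = P) ∧ (b ≤ l ∧ b' ≤ l ∧ b + b' = Q) ∧
      (a + b ≠ 1 ∧ a + b ≠ 2 * l - 1) ∧ (a' + b' ≠ 1 ∧ a' + b' ≠ 2 * l - 1) := by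
  have key : ∀ P Q : ℕ, P ≤ 2 * l → Q ≤ 2 * l → (P ≠ 1 ∧ P ≠ 2 * l - 1) →
      (Q ≠ 1 ∧ Q ≠ 2 * l - 1) → Q ≤ P →
      ∃ a a' b b', (a ≤ l ∧ a' ≤ l ∧ a + a' = P) ∧ (b ≤ l ∧ b' ≤ l ∧ b + b' = Q) ∧
      (a + b ≠ 1 ∧ a + b ≠ 2 * l - 1) ∧ (a' + b' ≠ 1 ∧ a' + b' ≠ 2 * l - 1) := by
    intro P Q hP hQ h1 h2 hPQ
    by_cases c1 : P ≤ l
    · by_cases c2 : P + Q = 2 * l - 1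
      · refine ⟨2, P - 2, 0, Q, ⟨?_, ?_, ?_⟩, ⟨?_, ?_, ?_⟩, ⟨?_, ?_⟩, ⟨?_, ?_⟩⟩ <;> omega
      · refine ⟨0, P, 0, Q, ⟨?_, ?_, ?_⟩, ⟨?_, ?_, ?_⟩, ⟨?_, ?_⟩, ⟨?_, ?_⟩⟩ <;> omega
    · by_cases c2 : Q ≤ l
      · by_cases c3 : P = l + 1
        · by_cases c4 : Q = l
          · refine ⟨l - 1, 2, l - 1, 1, ⟨?_, ?_, ?_⟩, ⟨?_, ?_, ?_⟩, ⟨?_, ?_⟩, ⟨?_, ?_⟩⟩ <;> omega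
          · refine ⟨l - 1, 2, Q, 0, ⟨?_, ?_, ?_⟩, ⟨?_, ?_, ?_⟩, ⟨?_, ?_⟩, ⟨?_, ?_⟩⟩ <;> omega
        · by_cases c4 : Q = l - 1
          · refine ⟨l, P - l, Q - 1, 1, ⟨?_, ?_, ?_⟩, ⟨?_, ?_, ?_⟩, ⟨?_, ?_⟩, ⟨?_, ?_⟩⟩ <;> omega
          · refine ⟨l, P - l, Q, 0, ⟨?_, ?_, ?_⟩, ⟨?_, ?_, ?_⟩, ⟨?_, ?_⟩, ⟨?_, ?_⟩⟩ <;> omega
      · refine ⟨l, P - l, l, Q - l, ⟨?_, ?_, ?_⟩, ⟨?_, ?_, ?_⟩, ⟨?_, ?_⟩, ⟨?_, ?_⟩⟩ <;> omega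
  rcases le_total Q P with h | h
  · exact key P Q hP hQ h1 h2 h
  · obtain ⟨a, a', b, b', e1, e2, e3, e4⟩ := key Q P hQ hP h2 h1 h
    refine ⟨b, b', a, a', e2, e1, ?_, ?_⟩
    · rwa [add_comm]
    · rwa [add_comm]

end Vale.Agent.P011.Tpl.H541
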