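import Vale.Agent.P011.Tpl.H541.Loc
import Vale.Agent.P011.Pow.ExSym

/-!
Symmetric square roots with prescribed signatures of the eigenspaces.
-/

open Module Matrix Polynomial NumberField IsDedekindDomain Filter Topology
open Vale.Agent.P011.RP (RData HasR1 Complete)

set_option linter.unusedSectionVars false

namespace Vale.Agent.P011.Tpl.H541

open Vale.Agent.P011.Arith Vale.Agent.P011.Even Vale.Agent.P011.Two Vale.Agent.P011.Two2
open Vale.Agent.P011.Pow
open Vale.Agent.P011.One (Xa)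

section sig

variable {k K D : Type} [Field k] [Field K] [NumberField K] [StarRing K]
    [DivisionRing D] [StarRing D] [Algebra k K] [Algebra k D] [Algebra K D] [IsScalarTower k K D]
    {d : kˣ} {s : K} {n : ℕ}

/-- A square root of a central element is conjugate to its opposite. -/
theorem exists_anti' (hS : Setting k K D d s) {a : kˣ} {x : D} (hx : x * x = algebraMap k D a)
    (hxK : ∀ c : K, algebraMap K D c ≠ x) : ∃ z : D, z ≠ 0 ∧ z * x = -(x * z) := by
  have := hS.cen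
  by_contra hcon
  push Not at hcon
  have h1 : ∀ y : D, x * y = y * x := by
    intro y
    by_contra hy
    refine hcon (x * y - y * x) (sub_ne_zero.mpr hy) ?_
    rw [sub_mul, mul_sub, ← mul_assoc x x, hx, mul_assoc y x x, hx, Algebra.commutes, mul_assoc,
      neg_sub]
  have h4 : x ∈ Subalgebra.center K D := by
    rw [Subalgebra.mem_center_iff]
    exact fun b => (h1 b).symm
  have h5 := Algebra.IsCentral.out h4
  rw [Algebra.mem_bot] at h5
  obtain ⟨c, hc⟩ := h5
  exact hxK c hc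

theorem tr_zero (hS : Setting k K D d s) {a : kˣ} {x : D} (hx : x * x = algebraMap k D a)
    (hxK : ∀ c : K, algebraMap K D c ≠ x) (R : RData K D n) : (R.f x).trace = 0 := by
  obtain ⟨z, hz, hzx⟩ := exists_anti' hS hx hxK
  have h1 : R.f z⁻¹ * R.f z = 1 := by rw [← map_mul, inv_mul_cancel₀ hz, map_one]
  have h2 : R.f z * R.f x * R.f z⁻¹ = -R.f x := by
    rw [← map_mul, hzx, ← map_mul, ← map_neg]
    congr 1
    rw [neg_mul, mul_assoc, mul_inv_cancel₀ hz, mul_one]
  have h3 : (R.f z * R.f x * R.f z⁻¹).trace = (R.f x).trace := by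
    rw [Matrix.trace_mul_comm, ← mul_assoc, h1, one_mul]
  rw [h2, Matrix.trace_neg] at h3
  have h4 : (2 : ℂ) * (R.f x).trace = 0 := by linear_combination -h3
  rcases mul_eq_zero.mp h4 with h5 | h5
  · exact absurd h5 two_ne_zero
  · exact h5

/-- **Signatures**: symmetric `u` such that `x* u + u x` has prescribed signatures on the
eigenspaces of `x`. -/
theorem exists_sig2 (hS : Setting k K D d s) {m : ℕ} (hnm : n = 2 * m) (hn : 0 < n) {a : kˣ}
    {x : D} (hx : x * x = algebraMap k D a) (hxK : ∀ c : K, algebraMap K D c ≠ x)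
    (hpos : ∀ φ : k →+* ℝ, φ d < 0 → 0 < φ a) {ι : Type} [Fintype ι] {R : ι → RData K D n}
    (hd : RP.Dense R) {p p' : ι → ℕ} (hp : ∀ i, p i ≤ m) (hp' : ∀ i, p' i ≤ m) :
    ∃ u : D, star u = u ∧ star x * u + u * x ≠ 0 ∧
      ∀ i, Sig ((R i).f (star x * u + u * x) * (R i).A) (p i + p' i) ∧
        Sig ((R i).f ((star x * u + u * x) * x) * (R i).A) (p i + (m - p' i)) := by
  classical
  rcases isEmpty_or_nonempty ι with hι | hι
  · obtain ⟨u, hu, hu0⟩ := exists_ne hS hx hxK
    exact ⟨u, hu, hu0, fun i => (hι.false i).elim⟩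
  have hloc : ∀ i, ∃ U₀ : Matrix (Fin n) (Fin n) ℂ, ∀ᶠ Y in 𝓝 U₀, ∀ u g : D, (R i).f u = Y →
      g = star x * (u + star u) + (u + star u) * x → star g = g → g * x = star x * g →
      Sig ((R i).f g * (R i).A) (p i + p' i) ∧
        Sig ((R i).f (g * x) * (R i).A) (p i + (m - p' i)) := by
    intro i
    obtain ⟨φ, hφ, hφd⟩ := exists_phi hS (R i)
    have h0 := hpos φ hφd
    refine exists_loc2 hnm (R i) (q := Real.sqrt (φ a)) (Real.sqrt_pos.mpr h0) ?_
      (tr_zero hS hx hxK (R i)) (hp i) (hp' i)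
    rw [← map_mul, hx, IsScalarTower.algebraMap_apply k K D, (R i).hf, hφ,
      Real.mul_self_sqrt h0.le]
  choose U₀ hU₀ using hloc
  have hev : ∀ᶠ Y in 𝓝 U₀, ∀ i, ∀ u g : D, (R i).f u = Y i →
      g = star x * (u + star u) + (u + star u) * x → star g = g → g * x = star x * g →
      Sig ((R i).f g * (R i).A) (p i + p' i) ∧
        Sig ((R i).f (g * x) * (R i).A) (p i + (m - p' i)) := by
    refine Filter.eventually_all.mpr fun i => ?_
    exact (continuous_apply i).continuousAt.eventually (hU₀ i)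
  obtain ⟨u, hu⟩ := U2.dense_mem hd hev
  have hus : star (u + star u) = u + star u := by rw [star_add, star_star, add_comm]
  obtain ⟨hg, hgx⟩ := sig_comm hS hx hus
  refine ⟨u + star u, hus, fun h0 => ?_, fun i => hu i u _ rfl rfl hg hgx⟩
  obtain ⟨i⟩ := hι
  have h1 := (hu i u _ rfl rfl hg hgx).1.isUnit
  rw [h0, map_zero, zero_mul] at h1
  have : Nonempty (Fin n) := ⟨⟨0, hn⟩⟩
  exact not_isUnit_zero h1

end sig

section main

variable {k K D : Type} [Field k] [NumberField k] [Field K] [NumberField K] [StarRing K]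
    [DivisionRing D] [StarRing D] [Algebra k K] [Algebra k D] [Algebra K D] [IsScalarTower k K D]
    {d : kˣ} {s : K}

/-- If `a` has a square root in a division algebra of even degree at least four, then it has a
symmetric square root, with prescribed signatures of the eigenspaces, as soon as it satisfies
conditions at the real places and at finitely many finite places. -/
theorem exists_symm2 (hS : Setting k K D d s) {m : ℕ} (hm : 2 ≤ m)
    (hdeg : finrank K D = (2 * m) ^ 2) :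
    ∃ S : Set (HeightOneSpectrum (𝓞 k)), S.Finite ∧ ∀ (a : kˣ) (x : D),
      x * x = algebraMap k D a → ¬ IsSquare (a : k) → ¬ IsSquare ((a * d : kˣ) : k) →
      (∀ φ : k →+* ℝ, φ d < 0 → 0 < φ a) →
      (∀ v ∈ S, d ∉ LS (v.valuation k) → a * d ∉ LS (v.valuation k)) →
      ∀ (ι : Type) [Fintype ι] (R : ι → RData K D (2 * m)), Complete R → RP.Dense R →
      ∀ p p' : ι → ℕ, (∀ i, p i ≤ m) → (∀ i, p' i ≤ m) → (∀ i, Sig (R i).A (p i + p' i)) →
      ∃ σ, σ ∈ Xa D a ∧ ∀ i, Sig ((R i).f σ * (R i).A) (p i + (m - p' i)) := by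
  have hn : 0 < 2 * m := by omega
  have i1 := hS.fin
  have i2 := hS.cen
  have hSM : StarModule K D := ⟨hS.star_smul⟩
  have hK : ∃ z : K, star z ≠ z := by
    refine ⟨s, fun h => ?_⟩
    obtain ⟨c, hc⟩ := (hS.fix s).mp h
    exact hS.ns ⟨c, (algebraMap k K).injective (by rw [← hS.sq, ← hc, map_mul, pow_two])⟩
  obtain ⟨f⟩ := Vale.Agent.P011S.exists_split (K := K) (D := D) hdeg (AlgebraicClosure K)
  obtain ⟨S, hSf, hS2⟩ := exists_ref hS hn hdeg f
  refine ⟨S, hSf, fun a x hx ha had hreal hcond ι _ R hcom hd q q' hq hq' hqq => ?_⟩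
  have hxK := sqrt_ne hS ha had hx
  obtain ⟨u, hu, hg0, hsig⟩ := exists_sig2 hS rfl hn hx hxK hreal hd hq hq'
  obtain ⟨hg, hgx⟩ := sig_comm hS hx hu
  obtain ⟨g, hgd⟩ : ∃ g, g = star x * u + u * x := ⟨_, rfl⟩
  rw [← hgd] at hg0 hsig hg hgx
  have hcong : ∀ R' : RData K D (2 * m), R'.CongAt 1 g := by
    refine RP.of_family hn hdeg hcom fun i => ?_
    obtain ⟨Q, hQ, h⟩ := (hqq i).cong (hsig i).1
    exact ⟨Q, hQ, by rw [map_one, one_mul]; exact h⟩
  -- the reduced norm
  have hdet : ∀ x : D, x ≠ 0 → (f x).det ≠ 0 := by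
    intro x hx h0
    have h1 : f x * f x⁻¹ = 1 := by rw [← map_mul, mul_inv_cancel₀ hx, map_one]
    have h2 := congrArg Matrix.det h1
    rw [Matrix.det_mul, h0, zero_mul, Matrix.det_one] at h2
    exact zero_ne_one h2
  obtain ⟨ν, hν⟩ : ∃ ν : kˣ, (f g).det = algebraMap K (AlgebraicClosure K) (algebraMap k K ν) := by
    obtain ⟨ν, hν⟩ := exists_nrd hn hdeg f g
    obtain ⟨ν', rfl⟩ := (hS.fix ν).mp (star_nrd hn hdeg hS.star_alg f hg hν)
    refine ⟨Units.mk0 ν' ?_, hν⟩
    rintro rfl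
    rw [map_zero, map_zero] at hν
    exact hdet g hg0 hν
  have hfin : ∀ v : HeightOneSpectrum (𝓞 k), a * d ∈ LS (v.valuation k) →
      ν ∈ NF d ⊔ LS (v.valuation k) := by
    intro v hv
    by_cases hd : d ∈ LS (v.valuation k)
    · rw [NF_sup_of_mem' d hd]
      exact Subgroup.mem_top _
    · refine hS2 v (fun hvS => hcond v hvS hd hv) hd a x g hx hxK hv hg hg0 hgx ν hν
  have hreal2 : ∀ φ : k →+* ℝ, φ d < 0 → 0 < φ a ∧ 0 < φ ν := by
    intro φ hφ
    refine ⟨hreal φ hφ, ?_⟩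
    obtain ⟨R', hR⟩ := exists_rdata_of (D := D) hS hn hdeg hφ
    have h1 := nrd_pos hS hn hdeg f R' hR (hcong R') (ν := 1) (ν' := ν)
      (by rw [map_one, Matrix.det_one, Units.val_one, map_one, map_one]) hν
    rwa [Units.val_one, map_one, mul_one] at h1
  -- the twisted involution
  have hg' : star g⁻¹ = g⁻¹ := by rw [star_inv₀, hg]
  have hg0' : g⁻¹ ≠ 0 := inv_ne_zero hg0
  have hx' : x ∈ @Xa k _ D _ (twistStar hg' hg0') _ a := by
    refine ⟨?_, hx⟩
    change g⁻¹ * star x * g⁻¹⁻¹ = x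
    rw [inv_inv, mul_assoc, ← hgx, ← mul_assoc, inv_mul_cancel₀ hg0, one_mul]
  obtain ⟨z, p, hz, hzx, hp0, hroots, N, hN, hNν⟩ :=
    @ExT.exists_tor k K D _ _ _ _ _ _ (twistStar hg' hg0') _ _ _ _ d s (setting_twist hS hg' hg0')
      m hm hdeg _ _ _ f a ν ha had x hx' hreal
      (fun L _ _ _ T hT hrk => exists_mu hS.ns ha hT hrk hfin hreal2)
  change g⁻¹ * star z * g⁻¹⁻¹ = z at hz
  have hz' : star z = g * z * g⁻¹ := by
    rw [inv_inv] at hz
    calc star z = g * (g⁻¹ * star z * g) * g⁻¹ := by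
          rw [mul_assoc g⁻¹, mul_inv_cancel_left₀ hg0, mul_assoc, mul_inv_cancel₀ hg0, mul_one]
      _ = g * z * g⁻¹ := by rw [hz]
  have hsp := star_aeval' hS hg0 hz' p
  obtain ⟨y, hy⟩ : ∃ y, y = aeval z p := ⟨_, rfl⟩
  rw [← hy] at hsp hN hp0
  have hyx : y * x = x * y := by
    rw [hy]
    have h1 : z ∈ Subalgebra.centralizer k {x} := by
      rw [Subalgebra.mem_centralizer_iff]
      rintro w rfl
      exact hzx.symm
    have h2 : aeval z p ∈ Subalgebra.centralizer k {x} :=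
      (Algebra.adjoin_le (Set.singleton_subset_iff.mpr h1)) (aeval_mem_adjoin_singleton k z)
    rw [Subalgebra.mem_centralizer_iff] at h2
    exact (h2 x rfl).symm
  obtain ⟨c, hc⟩ : ∃ c, c = g * y := ⟨_, rfl⟩
  have hcs : star c = c := by
    rw [hc, star_mul, hsp, hg, mul_assoc, inv_mul_cancel₀ hg0, mul_one]
  have hc0 : c ≠ 0 := by rw [hc]; exact mul_ne_zero hg0 hp0
  have hcx : c * x = star x * c := by
    rw [hc, mul_assoc, hyx, ← mul_assoc, hgx, mul_assoc]
  have hx0 : x ≠ 0 := by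
    rintro rfl
    exact hxK 0 (map_zero _)
  have hgxs : star (g * x) = g * x := by rw [star_mul, hg, ← hgx]
  have hgx0 : g * x ≠ 0 := mul_ne_zero hg0 hx0
  have hz'' : star z = (g * x) * z * (g * x)⁻¹ := by
    rw [hz', _root_.mul_inv_rev]
    calc g * z * g⁻¹ = g * (z * (x * x⁻¹)) * g⁻¹ := by rw [mul_inv_cancel₀ hx0, mul_one]
      _ = g * (z * x * x⁻¹) * g⁻¹ := by rw [mul_assoc z]
      _ = _ := by rw [hzx]; simp only [mul_assoc]
  have hcc : ∀ R : RData K D (2 * m), R.CongAt 1 c ∧ R.CongAt (g * x) (c * x) := by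
    intro R
    obtain ⟨φ, hφ, hφd⟩ := exists_phi hS R
    obtain ⟨ρ, hρi, hρ, hρp⟩ := hroots φ hφd
    have h1 := cong_mul R hφ hg hg0 hz' (minpoly.aeval k z) hρi hρ hρp (by rw [← hy]; exact hp0)
    have h2 := cong_mul R hφ hgxs hgx0 hz'' (minpoly.aeval k z) hρi hρ hρp
      (by rw [← hy]; exact hp0)
    rw [← hy, ← hc] at h1
    rw [← hy, mul_assoc, ← hyx, ← mul_assoc, ← hc] at h2
    exact ⟨cong_trans (hcong R) (cong_symm h1), cong_symm h2⟩
  obtain ⟨z', hz0', hzN⟩ : ∃ z' : K, z' ≠ 0 ∧ algebraMap k K ((ν * N : kˣ) : k) =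
      z' * star z' := by
    rw [mul_comm] at hNν
    obtain ⟨X, Y, hXY⟩ := hNν
    have hfixk : ∀ a : k, star (algebraMap k K a) = algebraMap k K a := fun a =>
      (hS.fix _).mpr ⟨a, rfl⟩
    have h1 : (algebraMap k K X + algebraMap k K Y * s) *
        star (algebraMap k K X + algebraMap k K Y * s) = algebraMap k K ((ν * N : kˣ) : k) := by
      rw [star_add, star_mul', hfixk, hfixk, hS.star_s, hXY, map_sub, map_mul, map_pow, map_pow,
        ← hS.sq]
      ring
    refine ⟨_, ?_, h1.symm⟩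
    intro h0
    rw [h0, zero_mul] at h1
    exact (_root_.map_ne_zero (algebraMap k K)).mpr (ν * N : kˣ).ne_zero h1.symm
  have hR1 : HasR1 K D (2 * m) := hasR1 hK hn hdeg
  obtain ⟨t, ht0, ht⟩ := hR1 (AlgebraicClosure K) f 1 c (star_one D) hcs one_ne_zero hc0
    ⟨z', hz0', by
      rw [map_one, Matrix.det_one, mul_one, hc, map_mul, Matrix.det_mul, hν, hN, ← map_mul,
        ← map_mul, ← hzN, Units.val_mul]⟩ (fun R => (hcc R).1)
  rw [mul_one] at ht
  have hst0 : star t ≠ 0 := star_ne_zero.mpr ht0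
  refine ⟨star t * x * (star t)⁻¹, ⟨?_, ?_⟩, fun i => ?_⟩
  · have h1 : star (star t * x * (star t)⁻¹) = t⁻¹ * (star x * t) := by
      rw [star_mul, star_mul, star_inv₀, star_star]
    have h2 : star x * t * star t = t * (star t * x) := by
      rw [mul_assoc, ← ht, ← hcx, ht, mul_assoc]
    rw [h1, eq_mul_inv_iff_mul_eq₀ hst0, mul_assoc, h2, ← mul_assoc, inv_mul_cancel₀ ht0, one_mul]
  · calc star t * x * (star t)⁻¹ * (star t * x * (star t)⁻¹) =
        star t * x * ((star t)⁻¹ * star t) * (x * (star t)⁻¹) := by simp only [mul_assoc]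
      _ = star t * (x * x) * (star t)⁻¹ := by
        rw [inv_mul_cancel₀ hst0, mul_one]
        simp only [mul_assoc]
      _ = algebraMap k D a := by
        rw [hx, ← Algebra.commutes, mul_assoc, mul_inv_cancel₀ hst0, mul_one]
  · obtain ⟨Q, hQ, hQ'⟩ := (hcc (R i)).2
    have h1 := (hsig i).2.congr hQ hQ'
    refine h1.congr (Q := (R i).f t⁻¹) (RP.f_unit' (R i) (inv_ne_zero ht0)) ?_
    have h2 : c * x * (star t)⁻¹ = t * (star t * x * (star t)⁻¹) := by
      rw [ht]; simp only [mul_assoc]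
    have h3 : (R i).A * ((R i).f t⁻¹)ᴴ = (R i).f (star t)⁻¹ * (R i).A := by
      rw [← (R i).star_f, star_inv₀]
    rw [mul_assoc, mul_assoc, h3, ← mul_assoc, ← mul_assoc, ← map_mul, ← map_mul]
    congr 2
    rw [mul_assoc, h2, inv_mul_cancel_left₀ ht0]

end main

end Vale.Agent.P011.Tpl.H541
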