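import Vale.Agent.P011.Tpl.H541.Res
import Vale.Agent.P011.Tpl.H541.Sym2

/-!
Signatures at the real places of the centralizer of a symmetric square root.
-/

open Module Matrix Filter Topology
open Vale.Agent.P011.RP (RData Complete)

set_option linter.unusedSectionVars false

namespace Vale.Agent.P011.Tpl.H541

open Vale.Agent.P011.Arith Vale.Agent.P011.Even Vale.Agent.P011.Two Vale.Agent.P011.Pow
open Vale.Agent.P011.One (Xa)

section spl

variable {k K D L K' C : Type} [Field k] [Field K] [StarRing K] [DivisionRing D] [StarRing D]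
    [Algebra k K] [Algebra k D] [Algebra K D] [IsScalarTower k K D]
    [Field L] [Field K'] [StarRing K'] [DivisionRing C] [StarRing C]
    [Algebra k L] [Algebra K K'] [Algebra L K'] [Algebra L C] [Algebra K' C]
    [IsScalarTower L K' C]
    {t : D} {a : kˣ} {T : L} {j : C →+* D} {n m : ℕ} {R : RData K D n} {P N : RData K' C m} {q : ℝ}

theorem Spl.val (hs : Spl T j q R P N) : ∃ (W : Matrix (Fin n) (Fin n) ℂ)
    (e : Fin n ≃ Fin m ⊕ Fin m), IsUnit W ∧ ∀ c, W * (R.f (j c) * R.A) * Wᴴ =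
      (Matrix.fromBlocks (P.f c * P.A) 0 0 (N.f c * N.A)).submatrix e e := by
  obtain ⟨W, e, hW, h1, h2⟩ := hs.blocks
  refine ⟨W, e, hW, fun c => ?_⟩
  calc W * (R.f (j c) * R.A) * Wᴴ = (W * R.f (j c)) * R.A * Wᴴ := by simp only [mul_assoc]
    _ = (Matrix.fromBlocks (P.f c) 0 0 (N.f c)).submatrix e e * (W * R.A * Wᴴ) := by
      rw [h1]; simp only [mul_assoc]
    _ = _ := by
      rw [h2, Matrix.submatrix_mul_equiv, Matrix.fromBlocks_multiply]
      simp only [Matrix.mul_zero, Matrix.zero_mul, add_zero, zero_add]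

theorem Sig.back {ι : Type} [Fintype ι] [DecidableEq ι] {G G' Q : Matrix ι ι ℂ} {p : ℕ}
    (h : Sig G' p) (hQ : IsUnit Q) (h1 : Q * G * Qᴴ = G') : Sig G p := by
  obtain ⟨⟨Q, R, hQR, hRQ⟩, rfl⟩ := hQ
  have e1 : Qᴴ * Rᴴ = 1 := by rw [← Matrix.conjTranspose_mul, hRQ, Matrix.conjTranspose_one]
  refine h.congr (Q := R) ⟨⟨R, Q, hRQ, hQR⟩, rfl⟩ ?_
  rw [← h1]
  change R * (Q * G * Qᴴ) * Rᴴ = G
  calc R * (Q * G * Qᴴ) * Rᴴ = (R * Q) * G * (Qᴴ * Rᴴ) := by simp only [mul_assoc]
    _ = _ := by rw [hRQ, e1, one_mul, mul_one]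

/-- The signatures at the two places add up. -/
theorem Spl.sig (hs : Spl T j q R P N) {c : C} {p p' : ℕ} (h : Sig (P.f c * P.A) p)
    (h' : Sig (N.f c * N.A) p') : Sig (R.f (j c) * R.A) (p + p') := by
  obtain ⟨W, e, hW, h1⟩ := hs.val
  exact ((h.blocks h').reindex e).back hW (h1 c)

theorem Spl.sigA (hs : Spl T j q R P N) {p p' : ℕ} (h : Sig P.A p) (h' : Sig N.A p') :
    Sig R.A (p + p') := by
  have h1 := hs.sig (c := 1) (p := p) (p' := p') (by rwa [map_one, one_mul])
    (by rwa [map_one, one_mul])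
  rwa [map_one, map_one, one_mul] at h1

theorem Spl.sigT (hs : Spl T j q R P N) (hq : 0 < q) {p p' : ℕ} (h : Sig P.A p)
    (h' : Sig N.A p') : Sig (R.f (j (algebraMap L C T)) * R.A) (p + (m - p')) := by
  have h1 : P.f (algebraMap L C T) = (q : ℂ) • 1 := by
    rw [IsScalarTower.algebraMap_apply L K' C, P.hf, hs.PT, Matrix.scalar_apply,
      Matrix.smul_one_eq_diagonal]
  have h2 : N.f (algebraMap L C T) = -((q : ℂ) • 1) := by
    rw [IsScalarTower.algebraMap_apply L K' C, N.hf, hs.NT, Matrix.scalar_apply,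
      ← neg_smul, Matrix.smul_one_eq_diagonal]
  apply hs.sig
  · rw [h1, smul_mul_assoc, one_mul]
    exact h.smul hq
  · rw [h2, neg_mul, smul_mul_assoc, one_mul]
    have h3 := (h'.smul hq).neg
    rwa [Fintype.card_fin] at h3

/-- The signatures at the two places are determined by the signatures of the form and of its
product with `t`. -/
theorem Spl.eq (hs : Spl T j q R P N) (hq : 0 < q) {x y : ℕ} (hy : y ≤ m)
    (h : Sig R.A (x + y)) (h' : Sig (R.f (j (algebraMap L C T)) * R.A) (x + (m - y))) :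
    Sig P.A x ∧ Sig N.A y := by
  obtain ⟨p, hp⟩ := sig_exists (G := P.A) P.hA P.unit
  obtain ⟨p', hp'⟩ := sig_exists (G := N.A) N.hA N.unit
  have h1 := (hs.sigA hp hp').unique h
  have h2 := (hs.sigT hq hp hp').unique h'
  have h3 := hp'.le
  rw [Fintype.card_fin] at h3
  obtain rfl : p = x := by omega
  obtain rfl : p' = y := by omega
  exact ⟨hp, hp'⟩

end spl

section lor

variable {K D : Type} [Field K] [StarRing K] [DivisionRing D] [StarRing D]
  [Algebra K D] [StarModule K D] [FiniteDimensional K D] [Algebra.IsCentral K D] {n : ℕ}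

theorem Sig.conj {ι : Type} [Fintype ι] [DecidableEq ι] {G : Matrix ι ι ℂ} {p : ℕ}
    (h : Sig G p) : Sig (G.map (starRingEnd ℂ)) p := by
  obtain ⟨T, η, hT, h1, h2⟩ := h
  refine ⟨T.map (starRingEnd ℂ), η, hT.map ((starRingEnd ℂ).mapMatrix), ?_, h2⟩
  have h3 : (T.map (starRingEnd ℂ))ᴴ = (Tᴴ).map (starRingEnd ℂ) := by
    ext a b
    rfl
  rw [h3, ← Matrix.map_mul, ← Matrix.map_mul, h1, sd, Matrix.diagonal_map (map_zero _)]
  congr 1
  funext i
  exact Complex.conj_ofReal _

/-- The signature at a place is well defined up to the sign. -/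
theorem sig_of_eq (hn : 0 < n) (hdeg : finrank K D = n ^ 2) {R R' : RData K D n}
    (hs : R.s = R'.s) {p : ℕ} (h : Sig R.A p) : Sig R'.A p ∨ Sig R'.A (n - p) := by
  obtain ⟨S, r, hS, hr, hf, hA⟩ := RData.unique hn hdeg R R' hs
  have h1 : Sig (S * R.A * Sᴴ) p := h.congr hS rfl
  rcases lt_or_gt_of_ne hr with h2 | h2
  · right
    have h3 := (h1.smul (neg_pos.mpr h2)).neg
    rw [Fintype.card_fin, Complex.ofReal_neg, neg_smul, neg_neg, ← hA] at h3
    exact h3
  · left
    rw [hA]
    exact h1.smul h2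

/-- The signatures at the places of a complete family decide. -/
theorem sgd_of_family (hn : 1 < n) (hdeg : finrank K D = n ^ 2) {ι : Type} {R : ι → RData K D n}
    (hR : Complete R) (h : ∀ i, ∃ p, Sig (R i).A p ∧ p ≠ 1 ∧ p ≠ n - 1) : Sgd K D n := by
  intro R' hL
  have key : ∀ i, ∀ R₀ : RData K D n, (R i).s = R₀.s → ∀ p', Sig R₀.A p' →
      p' ≠ 1 ∧ p' ≠ n - 1 := by
    intro i R₀ hs p' hp'
    obtain ⟨p, hp, h1, h2⟩ := h i
    have h3 := hp.le
    rw [Fintype.card_fin] at h3
    rcases sig_of_eq (by omega) hdeg hs hp with h4 | h4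
    · rw [hp'.unique h4]
      exact ⟨h1, h2⟩
    · rw [hp'.unique h4]
      omega
  obtain ⟨i, hi | hi⟩ := hR R'.s R'.hs
  · rcases sig_of_lor hL with h1 | h1
    · exact (key i R' hi 1 h1).1 rfl
    · exact (key i R' hi _ h1).2 rfl
  · have h2 : (R i).s = R'.conj.s := by
      ext z
      rw [RData.conj_s, hi]
    rcases sig_of_lor hL with h1 | h1
    · exact (key i R'.conj h2 1 h1.conj).1 rfl
    · exact (key i R'.conj h2 _ h1.conj).2 rfl

theorem Sgd.ne (hn : 1 < n) (h : Sgd K D n) (R : RData K D n) {p : ℕ} (hp : Sig R.A p) :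
    p ≠ 1 ∧ p ≠ n - 1 := by
  constructor
  · rintro rfl
    exact h R (lor_of_sig hn hp (Or.inl rfl))
  · rintro rfl
    exact h R (lor_of_sig hn hp (Or.inr rfl))

end lor

section fam

variable {k K D L K' C : Type} [Field k] [Field K] [NumberField K] [StarRing K]
    [DivisionRing D] [StarRing D]
    [Algebra k K] [Algebra k D] [Algebra K D] [IsScalarTower k K D]
    [Field L] [Field K'] [StarRing K'] [DivisionRing C] [StarRing C]
    [Algebra k L] [Algebra K K'] [Algebra L K'] [Algebra L C] [Algebra K' C]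
    [IsScalarTower L K' C]
    {d : kˣ} {s : K} {t : D} {a : kˣ} {T : L} {j : C →+* D} {n m : ℕ}

/-- The involutions of the fields are compatible. -/
theorem star_KK (hS : Setting k K D d s) {d' : Lˣ} {s' : K'} (hSC : Setting L K' C d' s')
    (h : IsCent k K D L K' C t a T j) (z : K) :
    algebraMap K K' (star z) = star (algebraMap K K' z) := by
  apply (algebraMap K' C).injective
  apply h.inj
  rw [h.jK, ← hSC.star_alg, h.star, h.jK, hS.star_alg]

/-- The places of the centralizer above a place. -/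
theorem Spl.or (h : IsCent k K D L K' C t a T j) {R : RData K D n} {P N : RData K' C m} {q : ℝ}
    (hs : Spl T j q R P N) (hq : R.s (algebraMap k K a) = ((q * q : ℝ) : ℂ)) {s' : K' →+* ℂ}
    (hs' : ∀ z : K, s' (algebraMap K K' z) = R.s z) : P.s = s' ∨ N.s = s' := by
  have h1 : s' (algebraMap L K' T) * s' (algebraMap L K' T) = (q : ℂ) * q := by
    rw [← map_mul, ← map_mul, h.sqT, ← h.comp, hs', hq, Complex.ofReal_mul]
  rcases mul_self_eq_mul_self_iff.mp h1 with h2 | h2
  · left
    ext l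
    obtain ⟨u, v, rfl⟩ := h.repK l
    rw [map_add, map_mul, map_add, map_mul, hs', hs', h2, hs.PK, hs.PK, hs.PT]
  · right
    ext l
    obtain ⟨u, v, rfl⟩ := h.repK l
    rw [map_add, map_mul, map_add, map_mul, hs', hs', h2, hs.NK, hs.NK, hs.NT]

/-- The data of the centralizer at all its places. -/
theorem exists_fam (hS : Setting k K D d s) {d' : Lˣ} {s' : K'} (hSC : Setting L K' C d' s')
    (h : IsCent k K D L K' C t a T j) (htK : ∀ c : K, algebraMap K D c ≠ t) (ht : star t = t)
    (hm : 0 < m) (hnm : n = 2 * m) (hpos : ∀ φ : k →+* ℝ, φ d < 0 → 0 < φ a)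
    {ι : Type} [Fintype ι] {R : ι → RData K D n} (hR : Complete R) (hd : RP.Dense R) :
    ∃ (q : ι → ℝ) (P N : ι → RData K' C m),
      (∀ i, 0 < q i ∧ Spl T j (q i) (R i) (P i) (N i)) ∧ Complete (Sum.elim P N) ∧
      RP.Dense (Sum.elim P N) := by
  classical
  have h1 : ∀ i, ∃ q : ℝ, 0 < q ∧ (R i).s (algebraMap k K a) = ((q * q : ℝ) : ℂ) ∧
      ∃ P N : RData K' C m, Spl T j q (R i) P N := by
    intro i
    obtain ⟨φ, hφ, hφd⟩ := exists_phi hS (R i)
    have h0 := hpos φ hφd
    have hx : (R i).s (algebraMap k K a) =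
        ((Real.sqrt (φ a) * Real.sqrt (φ a) : ℝ) : ℂ) := by
      rw [hφ, Real.mul_self_sqrt h0.le]
    refine ⟨Real.sqrt (φ a), Real.sqrt_pos.mpr h0, hx, ?_⟩
    refine exists_spl h hSC.star_alg ht hm hnm (R i) (Real.sqrt_pos.mpr h0) ?_
      (tr_zero hS h.sq htK (R i))
    rw [← map_mul, h.sq, IsScalarTower.algebraMap_apply k K D, (R i).hf, hx]
  choose q hq hqa P N hPN using h1
  refine ⟨q, P, N, fun i => ⟨hq i, hPN i⟩, ?_, ?_⟩
  · intro s' hs'
    have hc : ∀ z, (s'.comp (algebraMap K K')) (star z) = star ((s'.comp (algebraMap K K')) z) := by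
      intro z
      rw [RingHom.comp_apply, star_KK hS hSC h, hs']
      rfl
    obtain ⟨i, hi | hi⟩ := hR (s'.comp (algebraMap K K')) hc
    · rcases (hPN i).or h (hqa i) (s' := s') (fun z => by rw [hi]; rfl) with h2 | h2
      · exact ⟨Sum.inl i, Or.inl h2⟩
      · exact ⟨Sum.inr i, Or.inl h2⟩
    · rcases (hPN i).or h (hqa i) (s' := (starRingEnd ℂ).comp s') (fun z => by
        rw [hi]; rfl) with h2 | h2
      · exact ⟨Sum.inl i, Or.inr fun z => by
          change (P i).s z = _
          rw [h2]; rfl⟩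
      · exact ⟨Sum.inr i, Or.inr fun z => by
          change (N i).s z = _
          rw [h2]; rfl⟩
  · intro X ε hε
    choose W e hW hf hA using fun i => (hPN i).blocks
    have hWd := fun i => (Matrix.isUnit_iff_isUnit_det _).mp (hW i)
    obtain ⟨V, hV⟩ : ∃ V : ι → Matrix (Fin n) (Fin n) ℂ, ∀ i, V i = (W i)⁻¹ := ⟨_, fun _ => rfl⟩
    have w1 : ∀ i, W i * V i = 1 := fun i => by rw [hV, Matrix.mul_nonsing_inv _ (hWd i)]
    have w2 : ∀ i, V i * W i = 1 := fun i => by rw [hV, Matrix.nonsing_inv_mul _ (hWd i)]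
    obtain ⟨E, hE⟩ : ∃ E : ι → Matrix (Fin m ⊕ Fin m) (Fin m ⊕ Fin m) ℂ, ∀ i, E i =
        Matrix.fromBlocks (X (Sum.inl i)) 0 0 (X (Sum.inr i)) := ⟨_, fun _ => rfl⟩
    obtain ⟨Z, hZ⟩ : ∃ Z : ι → Matrix (Fin n) (Fin n) ℂ, ∀ i, Z i =
        (2 : ℂ)⁻¹ • (V i * (E i).submatrix (e i) (e i) * W i) := ⟨_, fun _ => rfl⟩
    have ht0 : t ≠ 0 := by
      rintro rfl
      exact htK 0 (map_zero _)
    have htt : ∀ i, (R i).f t * (R i).f t⁻¹ = 1 := fun i => by
      rw [← map_mul, mul_inv_cancel₀ ht0, map_one]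
    -- the averaging map
    obtain ⟨Ψ, hΨ⟩ : ∃ Ψ : ι → Matrix (Fin n) (Fin n) ℂ →
        Matrix (Fin m ⊕ Fin m) (Fin m ⊕ Fin m) ℂ, ∀ i Y, Ψ i Y =
          (W i * (Y + (R i).f t * Y * (R i).f t⁻¹) * V i).submatrix (e i).symm (e i).symm :=
      ⟨_, fun _ _ => rfl⟩
    have hΨc : ∀ i, Continuous (Ψ i) := by
      intro i
      have h1 : Ψ i = fun Y => (W i * (Y + (R i).f t * Y * (R i).f t⁻¹) * V i).submatrix
          (e i).symm (e i).symm := funext (hΨ i)
      rw [h1]
      have h2 : Continuous fun Y : Matrix (Fin n) (Fin n) ℂ => (R i).f t * Y * (R i).f t⁻¹ :=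
        (continuous_const.matrix_mul continuous_id).matrix_mul continuous_const
      have h3 : Continuous fun Y : Matrix (Fin n) (Fin n) ℂ =>
          W i * (Y + (R i).f t * Y * (R i).f t⁻¹) * V i :=
        (continuous_const.matrix_mul (continuous_id.add h2)).matrix_mul continuous_const
      exact h3.matrix_submatrix _ _
    have hfT : ∀ i, W i * (R i).f t = (blk m (q i) (-(q i))).submatrix (e i) (e i) * W i := by
      intro i
      have h2 := hf i (algebraMap L C T)
      rw [h.jT, IsScalarTower.algebraMap_apply L K' C, (P i).hf, (N i).hf, (hPN i).PT,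
        (hPN i).NT] at h2
      rw [h2, blk]
      simp only [Matrix.scalar_apply, Matrix.smul_one_eq_diagonal]
    have hΨZ : ∀ i, Ψ i (Z i) = E i := by
      intro i
      obtain ⟨J, hJ⟩ : ∃ J, J = (blk m (q i) (-(q i))).submatrix (e i) (e i) := ⟨_, rfl⟩
      obtain ⟨E', hE'⟩ : ∃ E', E' = (E i).submatrix (e i) (e i) := ⟨_, rfl⟩
      have hJE : J * E' = E' * J := by
        rw [hJ, hE', Matrix.submatrix_mul_equiv, Matrix.submatrix_mul_equiv, hE, blk,
          Matrix.fromBlocks_multiply, Matrix.fromBlocks_multiply]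
        simp only [Matrix.mul_zero, Matrix.zero_mul, add_zero, zero_add, smul_mul_assoc, one_mul,
          mul_smul_comm, mul_one, smul_zero]
      have hWT := hfT i
      rw [← hJ] at hWT
      have hXV : (R i).f t * V i = V i * J := by
        calc (R i).f t * V i = (V i * W i) * (R i).f t * V i := by rw [w2, one_mul]
          _ = V i * (W i * (R i).f t) * V i := by simp only [mul_assoc]
          _ = V i * J * (W i * V i) := by rw [hWT]; simp only [mul_assoc]
          _ = _ := by rw [w1, mul_one]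
      have hc : (R i).f t * Z i = Z i * (R i).f t := by
        rw [hZ, mul_smul_comm, smul_mul_assoc, ← hE']
        congr 1
        calc (R i).f t * (V i * E' * W i) = ((R i).f t * V i) * E' * W i := by
              simp only [mul_assoc]
          _ = V i * (J * E') * W i := by rw [hXV]; simp only [mul_assoc]
          _ = V i * E' * (J * W i) := by rw [hJE]; simp only [mul_assoc]
          _ = _ := by rw [← hWT]; simp only [mul_assoc]
      have hc2 : Z i + (R i).f t * Z i * (R i).f t⁻¹ = (2 : ℂ) • Z i := by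
        rw [hc, mul_assoc, htt, mul_one, two_smul]
      rw [hΨ, hc2, hZ, smul_smul, mul_inv_cancel₀ two_ne_zero, one_smul, ← hE']
      have h2 : W i * (V i * E' * W i) * V i = E' := by
        calc W i * (V i * E' * W i) * V i = (W i * V i) * E' * (W i * V i) := by
              simp only [mul_assoc]
          _ = _ := by rw [w1, one_mul, mul_one]
      rw [h2, hE', Matrix.submatrix_submatrix]
      simp
    have hev : ∀ᶠ Y in 𝓝 Z, ∀ i, ∀ a b, ‖Ψ i (Y i) a b - E i a b‖ < ε := by
      refine Filter.eventually_all.mpr fun i => Filter.eventually_all.mpr fun a =>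
        Filter.eventually_all.mpr fun b => ?_
      have h2 : Continuous fun Y : ι → Matrix (Fin n) (Fin n) ℂ => ‖Ψ i (Y i) a b - E i a b‖ :=
        ((((hΨc i).comp (continuous_apply i)).matrix_elem a b).sub continuous_const).norm
      have h3 := h2.tendsto Z
      rw [hΨZ, sub_self, norm_zero] at h3
      exact h3.eventually (gt_mem_nhds hε)
    obtain ⟨x, hx⟩ := U2.dense_mem hd hev
    obtain ⟨c, hc⟩ := (h.range (x + t * x * t⁻¹)).mp (by
      have h2 : t * t * (x * t⁻¹) = x * t := by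
        rw [h.sq, ← mul_assoc, Algebra.commutes, mul_assoc, ← h.sq, mul_assoc,
          mul_inv_cancel₀ ht0, mul_one]
      rw [add_mul, mul_add, mul_assoc (t * x), inv_mul_cancel₀ ht0, mul_one]
      rw [mul_assoc t x, ← mul_assoc t t, h2, add_comm])
    refine ⟨c, ?_⟩
    have hΨx : ∀ i, Ψ i ((R i).f x) = Matrix.fromBlocks ((P i).f c) 0 0 ((N i).f c) := by
      intro i
      have h2 : (R i).f x + (R i).f t * (R i).f x * (R i).f t⁻¹ = (R i).f (j c) := by
        rw [hc, map_add, map_mul, map_mul]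
      rw [hΨ, h2, hf, mul_assoc, w1, mul_one, Matrix.submatrix_submatrix]
      simp
    rintro (i | i) a b
    · have h2 := hx i (Sum.inl a) (Sum.inl b)
      rw [hΨx, hE] at h2
      exact h2
    · have h2 := hx i (Sum.inr a) (Sum.inr b)
      rw [hΨx, hE] at h2
      exact h2

end fam

end Vale.Agent.P011.Tpl.H541
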