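import Vale.Agent.P011.Tpl.H541.Sg
import Vale.Agent.P011.Pow.SigX

/-!
The local targets with prescribed signatures on the eigenspaces.
-/

open Module Matrix Filter Topology
open scoped ComplexOrder

set_option linter.unusedSectionVars false

namespace Vale.Agent.P011.Tpl.H541

open Vale.Agent.P011.RP Vale.Agent.P011.Even Vale.Agent.P011.Pow Vale.Agent.P011.Pow.SX

/-- The signs of the eigenvalues. -/
def blk (m : ℕ) (a b : ℂ) : Matrix (Fin m ⊕ Fin m) (Fin m ⊕ Fin m) ℂ :=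
  Matrix.fromBlocks (a • (1 : Matrix (Fin m) (Fin m) ℂ)) 0 0 (b • (1 : Matrix (Fin m) (Fin m) ℂ))

/-- A matrix of trace zero whose square is `q ^ 2`, in diagonal form. -/
theorem exists_W {n m : ℕ} (hnm : n = 2 * m) {X : Matrix (Fin n) (Fin n) ℂ} {q : ℝ} (hq : 0 < q)
    (hX : X * X = Matrix.scalar _ ((q * q : ℝ) : ℂ)) (htr : X.trace = 0) :
    ∃ (W : Matrix (Fin n) (Fin n) ℂ) (e : Fin n ≃ Fin m ⊕ Fin m), IsUnit W ∧
      W * X = (blk m q (-q)).submatrix e e * W := by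
  classical
  have hq0 : (q : ℂ) ≠ 0 := by exact_mod_cast hq.ne'
  have hy : ((q : ℂ)⁻¹ • X) * ((q : ℂ)⁻¹ • X) = 1 := by
    rw [smul_mul_smul_comm, hX, Matrix.scalar_apply, ← Matrix.smul_one_eq_diagonal, smul_smul,
      Complex.ofReal_mul]
    have : (q : ℂ)⁻¹ * (q : ℂ)⁻¹ * (q * q) = 1 := by field_simp
    rw [this, one_smul]
  obtain ⟨W, w, hW, hWy⟩ := exists_diag hy
  have hWd := (Matrix.isUnit_iff_isUnit_det _).mp hW
  have hww : ∀ i, w i * w i = 1 := by
    have h1 : Matrix.diagonal (fun i => (w i : ℂ)) * Matrix.diagonal (fun i => (w i : ℂ)) * W =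
        W := by
      rw [mul_assoc, ← hWy, ← mul_assoc, ← hWy, mul_assoc, hy, mul_one]
    have h2 : Matrix.diagonal (fun i => (w i : ℂ)) * Matrix.diagonal (fun i => (w i : ℂ)) = 1 := by
      calc _ = Matrix.diagonal (fun i => (w i : ℂ)) * Matrix.diagonal (fun i => (w i : ℂ)) *
            (W * W⁻¹) := by rw [Matrix.mul_nonsing_inv _ hWd, mul_one]
        _ = _ := by rw [← mul_assoc, h1, Matrix.mul_nonsing_inv _ hWd]
    intro i
    have h3 := congrFun (congrFun h2 i) i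
    rw [Matrix.diagonal_mul_diagonal, Matrix.diagonal_apply_eq, Matrix.one_apply_eq,
      ← Complex.ofReal_mul] at h3
    exact_mod_cast h3
  have hw : ∀ i, w i = 1 ∨ w i = -1 := fun i => mul_self_eq_one_iff.mp (hww i)
  have hsum : ∑ i, w i = 0 := by
    have h1 : (q : ℂ)⁻¹ • X = W⁻¹ * (Matrix.diagonal (fun i => (w i : ℂ)) * W) := by
      rw [← hWy, ← mul_assoc, Matrix.nonsing_inv_mul _ hWd, one_mul]
    have h2 : ((q : ℂ)⁻¹ • X).trace = ∑ i, (w i : ℂ) := by
      rw [h1, Matrix.trace_mul_comm, mul_assoc, Matrix.mul_nonsing_inv _ hWd, mul_one,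
        Matrix.trace_diagonal]
    rw [Matrix.trace_smul, htr, smul_zero] at h2
    have h3 : ((∑ i, w i : ℝ) : ℂ) = 0 := by rw [h2]; push_cast; rfl
    exact_mod_cast h3
  have hcard : Fintype.card {i // w i = 1} = m ∧ Fintype.card {i // ¬ w i = 1} = m := by
    have h1 : Fintype.card {i // ¬ w i = 1} = n - Fintype.card {i // w i = 1} := by
      rw [Fintype.card_subtype_compl, Fintype.card_fin]
    have h2 : Fintype.card {i // w i = 1} ≤ n := by
      have := Fintype.card_subtype_le fun i => w i = 1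
      rwa [Fintype.card_fin] at this
    have h3 : ∑ i, w i = (Fintype.card {i // w i = 1} : ℝ) - (Fintype.card {i // ¬ w i = 1} : ℝ) := by
      have h4 : ∀ i, w i = (if w i = 1 then (1 : ℝ) else 0) - (if ¬ w i = 1 then (1 : ℝ) else 0) := by
        intro i
        rcases hw i with h | h
        · rw [h]; norm_num
        · rw [h]; norm_num
      rw [Finset.sum_congr rfl fun i _ => h4 i, Finset.sum_sub_distrib, Finset.sum_boole,
        Finset.sum_boole, Fintype.card_subtype, Fintype.card_subtype]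
    rw [hsum] at h3
    have h4 : (Fintype.card {i // w i = 1} : ℝ) = (Fintype.card {i // ¬ w i = 1} : ℝ) := by
      linarith
    have h5 : Fintype.card {i // w i = 1} = Fintype.card {i // ¬ w i = 1} := by
      exact_mod_cast h4
    omega
  obtain ⟨e1⟩ : Nonempty ({i // w i = 1} ≃ Fin m) := ⟨Fintype.equivFinOfCardEq hcard.1⟩
  obtain ⟨e2⟩ : Nonempty ({i // ¬ w i = 1} ≃ Fin m) := ⟨Fintype.equivFinOfCardEq hcard.2⟩
  let e : Fin n ≃ Fin m ⊕ Fin m := (Equiv.sumCompl fun i => w i = 1).symm.trans (e1.sumCongr e2)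
  refine ⟨W, e, hW, ?_⟩
  have h1 : X = (q : ℂ) • ((q : ℂ)⁻¹ • X) := by rw [smul_smul, mul_inv_cancel₀ hq0, one_smul]
  have h2 : (blk m q (-q)).submatrix e e = (q : ℂ) • Matrix.diagonal (fun i => (w i : ℂ)) := by
    ext i j
    rw [Matrix.submatrix_apply, Matrix.smul_apply, Matrix.diagonal_apply]
    have hi : ∀ i : Fin n, (w i = 1 → ∃ i', e i = Sum.inl i') ∧
        (¬ w i = 1 → ∃ i', e i = Sum.inr i') := by
      intro i
      constructor
      · intro h
        refine ⟨e1 ⟨i, h⟩, ?_⟩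
        change (e1.sumCongr e2) ((Equiv.sumCompl fun i => w i = 1).symm i) = _
        rw [Equiv.sumCompl_symm_apply_of_pos (p := fun i => w i = 1) h]
        rfl
      · intro h
        refine ⟨e2 ⟨i, h⟩, ?_⟩
        change (e1.sumCongr e2) ((Equiv.sumCompl fun i => w i = 1).symm i) = _
        rw [Equiv.sumCompl_symm_apply_of_neg (p := fun i => w i = 1) h]
        rfl
    have hij : e i = e j ↔ i = j := e.injective.eq_iff
    by_cases hj : i = j
    · subst hj
      rw [if_pos rfl]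
      by_cases h : w i = 1
      · obtain ⟨i', hi'⟩ := (hi i).1 h
        rw [hi', h, blk, Matrix.fromBlocks_apply₁₁]
        simp
      · obtain ⟨i', hi'⟩ := (hi i).2 h
        rw [hi', (hw i).resolve_left h, blk, Matrix.fromBlocks_apply₂₂]
        simp
    · rw [if_neg hj, smul_zero]
      have hne : e i ≠ e j := fun h => hj (hij.mp h)
      rw [blk]
      rcases hx : e i with i' | i' <;> rcases hy : e j with j' | j'
      · rw [Matrix.fromBlocks_apply₁₁, Matrix.smul_apply, Matrix.one_apply_ne, smul_zero]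
        rintro rfl
        exact hne (hx.trans hy.symm)
      · rfl
      · rfl
      · rw [Matrix.fromBlocks_apply₂₂, Matrix.smul_apply, Matrix.one_apply_ne, smul_zero]
        rintro rfl
        exact hne (hx.trans hy.symm)
  rw [h2, smul_mul_assoc, ← hWy, ← mul_smul_comm, ← h1]

/-- The target. -/
theorem exists_target2 {n m : ℕ} (hnm : n = 2 * m) {X : Matrix (Fin n) (Fin n) ℂ} {q : ℝ}
    (hq : 0 < q) (hX : X * X = Matrix.scalar _ ((q * q : ℝ) : ℂ)) (htr : X.trace = 0)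
    {p p' : ℕ} (hp : p ≤ m) (hp' : p' ≤ m) :
    ∃ M : Matrix (Fin n) (Fin n) ℂ, Mᴴ = M ∧ M * X = Xᴴ * M ∧ Sig M (p + p') ∧
      Sig (M * X) (p + (m - p')) := by
  classical
  obtain ⟨W, e, hW, hWX⟩ := exists_W hnm hq hX htr
  obtain ⟨s, hs⟩ : ∃ s : ℕ → Fin m → ℤˣ, ∀ p i, s p i = if (i : ℕ) < p then 1 else -1 :=
    ⟨_, fun _ _ => rfl⟩
  have hcard : ∀ p ≤ m, Fintype.card {i // s p i = 1} = p := by
    intro p hp
    have h1 : Fintype.card {i // s p i = 1} = Fintype.card {i : Fin m // (i : ℕ) < p} := by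
      apply Fintype.card_congr
      refine Equiv.subtypeEquivRight fun i => ?_
      rw [hs]
      split_ifs with h
      · simp [h]
      · constructor
        · intro h2
          exact absurd h2 (by decide)
        · intro h2
          exact absurd h2 h
    rw [h1, Fintype.card_subtype, Fin.card_filter_val_lt, min_eq_right hp]
  have h1 : Sig (sd (s p)) p := by
    have := sig_sd (s p)
    rwa [hcard p hp] at this
  have h2 : Sig (sd (s p')) p' := by
    have := sig_sd (s p')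
    rwa [hcard p' hp'] at this
  obtain ⟨E, hE⟩ : ∃ E, E = (Matrix.fromBlocks (sd (s p)) 0 0 (sd (s p'))).submatrix e e :=
    ⟨_, rfl⟩
  obtain ⟨J, hJ⟩ : ∃ J, J = (blk m q (-q)).submatrix e e := ⟨_, rfl⟩
  have hE1 : Sig E (p + p') := by
    rw [hE]
    exact (h1.blocks h2).reindex e
  have hEJ : E * J = (Matrix.fromBlocks ((q : ℂ) • sd (s p)) 0 0
      ((q : ℂ) • -sd (s p'))).submatrix e e := by
    rw [hE, hJ, Matrix.submatrix_mul_equiv, blk, Matrix.fromBlocks_multiply]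
    simp only [Matrix.mul_zero, add_zero, zero_add, mul_smul_comm, mul_one,
      neg_smul, smul_neg, mul_neg, smul_zero, neg_zero]
  have hJE : J * E = E * J := by
    rw [hEJ, hE, hJ, Matrix.submatrix_mul_equiv, blk, Matrix.fromBlocks_multiply]
    simp only [Matrix.mul_zero, Matrix.zero_mul, add_zero, zero_add, smul_mul_assoc, one_mul,
      neg_smul, smul_neg, neg_mul, smul_zero, neg_zero]
  have hE2 : Sig (E * J) (p + (m - p')) := by
    rw [hEJ]
    have h3 := h2.neg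
    rw [Fintype.card_fin] at h3
    exact ((h1.smul hq).blocks (h3.smul hq)).reindex e
  have hEs : Eᴴ = E := hE1.isHermitian
  have hJs : Jᴴ = J := by
    have h3 := hE2.isHermitian
    rw [Matrix.IsHermitian, Matrix.conjTranspose_mul, hEs, ← hJE] at h3
    have h4 := hE1.isUnit
    exact h4.mul_right_cancel h3
  rw [← hJ] at hWX
  have hWs : IsUnit Wᴴ := hW.star
  refine ⟨Wᴴ * E * W, ?_, ?_, ?_, ?_⟩
  · rw [Matrix.conjTranspose_mul, Matrix.conjTranspose_mul, Matrix.conjTranspose_conjTranspose,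
      hEs, mul_assoc]
  · have h1 : Xᴴ * Wᴴ = Wᴴ * J := by
      rw [← Matrix.conjTranspose_mul, hWX, Matrix.conjTranspose_mul, hJs]
    calc Wᴴ * E * W * X = Wᴴ * (E * J) * W := by
          rw [mul_assoc _ W X, hWX]; simp only [mul_assoc]
      _ = Wᴴ * J * E * W := by rw [← hJE]; simp only [mul_assoc]
      _ = _ := by rw [← h1]; simp only [mul_assoc]
  · refine hE1.congr hWs ?_
    rw [Matrix.conjTranspose_conjTranspose]
  · refine hE2.congr hWs ?_
    rw [Matrix.conjTranspose_conjTranspose, mul_assoc _ W X, hWX]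
    simp only [mul_assoc]

/-- The local situation at one real place: the target `U₀` and the neighbourhood. -/
theorem exists_loc2 {K D : Type} [Field K] [StarRing K] [DivisionRing D] [StarRing D] [Algebra K D]
    {n m : ℕ} (hnm : n = 2 * m) (R : RData K D n) {x : D} {q : ℝ} (hq : 0 < q)
    (hx : R.f x * R.f x = Matrix.scalar _ ((q * q : ℝ) : ℂ)) (htr : (R.f x).trace = 0)
    {p p' : ℕ} (hp : p ≤ m) (hp' : p' ≤ m) :
    ∃ U₀ : Matrix (Fin n) (Fin n) ℂ, ∀ᶠ Y in 𝓝 U₀, ∀ u g : D, R.f u = Y →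
      g = star x * (u + star u) + (u + star u) * x → star g = g → g * x = star x * g →
      Sig (R.f g * R.A) (p + p') ∧ Sig (R.f (g * x) * R.A) (p + (m - p')) := by
  classical
  have hAd := (Matrix.isUnit_iff_isUnit_det _).mp R.unit
  obtain ⟨X, hX⟩ : ∃ X, X = R.f x := ⟨_, rfl⟩
  obtain ⟨A, hA⟩ : ∃ A, A = R.A := ⟨_, rfl⟩
  obtain ⟨J, hJ⟩ : ∃ J, J = A⁻¹ := ⟨_, rfl⟩
  rw [← hA] at hAd
  have hAs : Aᴴ = A := by rw [hA, R.hA]
  have j1 : A * J = 1 := by rw [hJ, Matrix.mul_nonsing_inv _ hAd]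
  have j2 : J * A = 1 := by rw [hJ, Matrix.nonsing_inv_mul _ hAd]
  have hst : ∀ z : D, R.f (star z) = A * (R.f z)ᴴ * J := by
    intro z
    have h := R.star_f z
    rw [← hA] at h
    rw [← h, mul_assoc, j1, mul_one]
  rw [← hX] at hx htr
  obtain ⟨M, hM, hMX, hMs, hMXs⟩ := exists_target2 hnm hq hx htr hp hp'
  have hA' : IsUnit A := hA ▸ R.unit
  obtain ⟨G, hG⟩ : ∃ G, G = A * M * A := ⟨_, rfl⟩
  obtain ⟨G', hG'⟩ : ∃ G', G' = A * (M * X) * A := ⟨_, rfl⟩
  have hGs : Sig G (p + p') := hMs.congr hA' (by rw [hAs, hG])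
  have hG's : Sig G' (p + (m - p')) := hMXs.congr hA' (by rw [hAs, hG'])
  obtain ⟨η, hη, hnear⟩ := herm_near hGs.isHermitian hGs.isUnit
  obtain ⟨η', hη', hnear'⟩ := herm_near hG's.isHermitian hG's.isUnit
  have hr0 : ((q * q : ℝ) : ℂ) ≠ 0 := by exact_mod_cast (mul_pos hq hq).ne'
  obtain ⟨U, hU⟩ : ∃ U, U = (4 * ((q * q : ℝ) : ℂ))⁻¹ • (A * M * X) := ⟨_, rfl⟩
  obtain ⟨Φ, hΦ⟩ : ∃ Φ : Matrix (Fin n) (Fin n) ℂ → Matrix (Fin n) (Fin n) ℂ, ∀ Y, Φ Y =
      (A * Xᴴ * J * (Y + A * Yᴴ * J) + (Y + A * Yᴴ * J) * X) * A - G := ⟨_, fun _ => rfl⟩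
  have hΦc : Continuous Φ := by
    have h1 : Φ = fun Y => (A * Xᴴ * J * (Y + A * Yᴴ * J) + (Y + A * Yᴴ * J) * X) * A - G :=
      funext hΦ
    rw [h1]
    exact phi_cont A (A * Xᴴ * J) J X G
  have hΦU : Φ U = 0 := by
    rw [hΦ, phi_zero hr0 hx j1 j2 hAs hM hMX hU, ← hG, sub_self]
  obtain ⟨Ψ, hΨ⟩ : ∃ Ψ : Matrix (Fin n) (Fin n) ℂ → Matrix (Fin n) (Fin n) ℂ, ∀ Y, Ψ Y =
      Φ Y * (J * X * A) := ⟨_, fun _ => rfl⟩
  have hΨc : Continuous Ψ := by
    have h1 : Ψ = fun Y => Φ Y * (J * X * A) := funext hΨ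
    rw [h1]
    exact hΦc.matrix_mul continuous_const
  have hΨU : Ψ U = 0 := by rw [hΨ, hΦU, zero_mul]
  refine ⟨U, ?_⟩
  have hev : ∀ (F : Matrix (Fin n) (Fin n) ℂ → Matrix (Fin n) (Fin n) ℂ), Continuous F →
      F U = 0 → ∀ η : ℝ, 0 < η → ∀ᶠ Y in 𝓝 U, ∀ i j, ‖F Y i j‖ < η := by
    intro F hF hFU η hη
    have h1 : ∀ i j, ∀ᶠ Y in 𝓝 U, ‖F Y i j‖ < η := by
      intro i j
      have h2 : Tendsto (fun Y => ‖F Y i j‖) (𝓝 U) (𝓝 ‖F U i j‖) :=
        ((hF.matrix_elem i j).norm.tendsto U)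
      rw [hFU, Matrix.zero_apply, norm_zero] at h2
      exact h2.eventually (gt_mem_nhds hη)
    exact Filter.eventually_all.mpr fun i => Filter.eventually_all.mpr fun j => h1 i j
  filter_upwards [hev Φ hΦc hΦU η hη, hev Ψ hΨc hΨU η' hη'] with Y hY hY' u g hu hg hs hgx
  have hfg : R.f g * R.A = G + Φ Y := by
    rw [hg, hΦ, map_add, map_mul, map_mul, map_add, hst x, hst u, hu, ← hX, ← hA]
    abel
  have hΦs : (Φ Y).IsHermitian := by
    have h1 : Φ Y = R.f g * R.A - G := by rw [hfg, add_sub_cancel_left]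
    rw [h1]
    exact Matrix.IsHermitian.sub (f_herm R hs) hGs.isHermitian
  have hfgx : R.f (g * x) * R.A = G' + Ψ Y := by
    rw [map_mul, ← hX, ← hA, hΨ]
    calc R.f g * X * A = (R.f g * (A * J)) * X * A := by rw [j1, mul_one]
      _ = (R.f g * A) * (J * X * A) := by simp only [mul_assoc]
      _ = (G + Φ Y) * (J * X * A) := by rw [← hfg, hA]
      _ = A * M * (A * J) * X * A + Φ Y * (J * X * A) := by
        rw [add_mul, hG]; simp only [mul_assoc]
      _ = _ := by rw [j1, mul_one, hG']; simp only [mul_assoc]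
  have hΨs : (Ψ Y).IsHermitian := by
    have h1 : Ψ Y = R.f (g * x) * R.A - G' := by rw [hfgx, add_sub_cancel_left]
    rw [h1]
    exact Matrix.IsHermitian.sub (f_herm R (by rw [star_mul, hs, ← hgx])) hG's.isHermitian
  obtain ⟨P, hP, hPG⟩ := hnear (Φ Y) hΦs hY
  obtain ⟨P', hP', hPG'⟩ := hnear' (Ψ Y) hΨs hY'
  exact ⟨hfg ▸ hGs.congr hP hPG, hfgx ▸ hG's.congr hP' hPG'⟩

end Vale.Agent.P011.Tpl.H541
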