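import Vale.Agent.P011.Tpl.H541.Loc
import Vale.Agent.P011.Pow.IsCent

/-!
The data at the real places of the centralizer of a symmetric square root.
-/

open Module Matrix
open Vale.Agent.P011.RP (RData Complete)

set_option linter.unusedSectionVars false

namespace Vale.Agent.P011.Tpl.H541

open Vale.Agent.P011.Arith Vale.Agent.P011.Even Vale.Agent.P011.Two Vale.Agent.P011.Pow
open Vale.Agent.P011.One (Xa)

section mat

variable {m : ℕ}

/-- Matrices which commute with the matrix of signs are block diagonal. -/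
theorem block_of_comm {q : ℝ} (hq : 0 < q) {M : Matrix (Fin m ⊕ Fin m) (Fin m ⊕ Fin m) ℂ}
    (h : M * blk m q (-q) = blk m q (-q) * M) :
    ∃ A B : Matrix (Fin m) (Fin m) ℂ, M = Matrix.fromBlocks A 0 0 B := by
  have hq0 : (q : ℂ) ≠ 0 := by exact_mod_cast hq.ne'
  refine ⟨M.toBlocks₁₁, M.toBlocks₂₂, ?_⟩
  obtain ⟨A, B, C, D, rfl⟩ : ∃ A B C D, M = Matrix.fromBlocks A B C D :=
    ⟨_, _, _, _, (Matrix.fromBlocks_toBlocks M).symm⟩
  rw [blk, Matrix.fromBlocks_multiply, Matrix.fromBlocks_multiply] at h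
  simp only [Matrix.mul_zero, Matrix.zero_mul, add_zero, zero_add, smul_mul_assoc, one_mul,
    mul_smul_comm, mul_one] at h
  obtain ⟨-, h1, h2, -⟩ := Matrix.fromBlocks_inj.mp h
  have h3 : (2 * (q : ℂ)) • B = 0 := by
    rw [two_mul, add_smul]
    nth_rewrite 1 [← h1]
    rw [← add_smul, neg_add_cancel, zero_smul]
  have h4 : (2 * (q : ℂ)) • C = 0 := by
    rw [two_mul, add_smul]
    nth_rewrite 1 [h2]
    rw [← add_smul, neg_add_cancel, zero_smul]
  have h5 : (2 * (q : ℂ)) ≠ 0 := mul_ne_zero two_ne_zero hq0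
  rw [(smul_eq_zero.mp h3).resolve_left h5, (smul_eq_zero.mp h4).resolve_left h5,
    Matrix.toBlocks_fromBlocks₁₁, Matrix.toBlocks_fromBlocks₂₂]

/-- A block diagonal homomorphism. -/
theorem exists_pair {C : Type} [Ring C] (F : C →+* Matrix (Fin m ⊕ Fin m) (Fin m ⊕ Fin m) ℂ)
    (h : ∀ c, ∃ A B : Matrix (Fin m) (Fin m) ℂ, F c = Matrix.fromBlocks A 0 0 B) :
    ∃ f g : C →+* Matrix (Fin m) (Fin m) ℂ, ∀ c, F c = Matrix.fromBlocks (f c) 0 0 (g c) := by
  choose A B hAB using h
  have h1 : A 1 = 1 ∧ B 1 = 1 := by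
    have h2 := hAB 1
    rw [map_one, ← Matrix.fromBlocks_one] at h2
    obtain ⟨h3, -, -, h4⟩ := Matrix.fromBlocks_inj.mp h2
    exact ⟨h3.symm, h4.symm⟩
  have h2 : A 0 = 0 ∧ B 0 = 0 := by
    have h2 := hAB 0
    rw [map_zero, ← Matrix.fromBlocks_zero] at h2
    obtain ⟨h3, -, -, h4⟩ := Matrix.fromBlocks_inj.mp h2
    exact ⟨h3.symm, h4.symm⟩
  have h3 : ∀ x y, A (x * y) = A x * A y ∧ B (x * y) = B x * B y := by
    intro x y
    have h2 := hAB (x * y)
    rw [map_mul, hAB x, hAB y, Matrix.fromBlocks_multiply] at h2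
    simp only [Matrix.mul_zero, Matrix.zero_mul, add_zero, zero_add] at h2
    obtain ⟨h3, -, -, h4⟩ := Matrix.fromBlocks_inj.mp h2
    exact ⟨h3.symm, h4.symm⟩
  have h4 : ∀ x y, A (x + y) = A x + A y ∧ B (x + y) = B x + B y := by
    intro x y
    have h2 := hAB (x + y)
    rw [map_add, hAB x, hAB y, Matrix.fromBlocks_add, add_zero] at h2
    obtain ⟨h3, -, -, h4⟩ := Matrix.fromBlocks_inj.mp h2
    exact ⟨h3.symm, h4.symm⟩
  exact ⟨{ toFun := A, map_one' := h1.1, map_zero' := h2.1, map_mul' := fun x y => (h3 x y).1,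
           map_add' := fun x y => (h4 x y).1 },
    { toFun := B, map_one' := h1.2, map_zero' := h2.2, map_mul' := fun x y => (h3 x y).2,
      map_add' := fun x y => (h4 x y).2 }, hAB⟩

theorem exists_scal {F : Type} [Field F] (hm : 0 < m) (g : F →+* Matrix (Fin m) (Fin m) ℂ)
    (h : ∀ l, ∃ c, g l = Matrix.scalar (Fin m) c) :
    ∃ s : F →+* ℂ, ∀ l, g l = Matrix.scalar (Fin m) (s l) := by
  have : Nonempty (Fin m) := ⟨⟨0, hm⟩⟩
  choose s hs using h
  refine ⟨{ toFun := s, map_one' := ?_, map_zero' := ?_, map_mul' := ?_, map_add' := ?_ }, hs⟩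
  · exact Matrix.scalar_inj.mp (by rw [← hs, map_one, map_one])
  · intro x y
    exact Matrix.scalar_inj.mp (by rw [← hs, map_mul, map_mul, hs, hs])
  · exact Matrix.scalar_inj.mp (by rw [← hs, map_zero, map_zero])
  · intro x y
    exact Matrix.scalar_inj.mp (by rw [← hs, map_add, map_add, hs, hs])

end mat

variable {k K D L K' C : Type} [Field k] [Field K] [StarRing K] [DivisionRing D] [StarRing D]
    [Algebra k K] [Algebra k D] [Algebra K D] [IsScalarTower k K D]
    [Field L] [Field K'] [StarRing K'] [DivisionRing C] [StarRing C]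
    [Algebra k L] [Algebra K K'] [Algebra L K'] [Algebra L C] [Algebra K' C]
    [IsScalarTower L K' C]
    {t : D} {a : kˣ} {T : L} {j : C →+* D} {n m : ℕ}

/-- `P` and `N` are the data of the centralizer above `R`. -/
structure Spl (T : L) (j : C →+* D) (q : ℝ) (R : RData K D n) (P N : RData K' C m) : Prop where
  blocks : ∃ (W : Matrix (Fin n) (Fin n) ℂ) (e : Fin n ≃ Fin m ⊕ Fin m), IsUnit W ∧
    (∀ c, W * R.f (j c) = (Matrix.fromBlocks (P.f c) 0 0 (N.f c)).submatrix e e * W) ∧
    W * R.A * Wᴴ = (Matrix.fromBlocks P.A 0 0 N.A).submatrix e e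
  PK : ∀ u : K, P.s (algebraMap K K' u) = R.s u
  NK : ∀ u : K, N.s (algebraMap K K' u) = R.s u
  PT : P.s (algebraMap L K' T) = (q : ℂ)
  NT : N.s (algebraMap L K' T) = -(q : ℂ)

theorem blk_herm (q : ℝ) : (blk m q (-q))ᴴ = blk m q (-q) := by
  rw [blk, Matrix.fromBlocks_conjTranspose, Matrix.conjTranspose_smul, Matrix.conjTranspose_smul,
    Matrix.conjTranspose_one, Matrix.conjTranspose_zero, star_neg]
  have : star (q : ℂ) = q := Complex.conj_ofReal q
  rw [this]

/-- The data of the centralizer above a given place. -/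
theorem exists_spl (h : IsCent k K D L K' C t a T j)
    (hsC : ∀ l : K', star (algebraMap K' C l) = algebraMap K' C (star l)) (ht : star t = t)
    (hm : 0 < m) (hnm : n = 2 * m) (R : RData K D n) {q : ℝ} (hq : 0 < q)
    (hX : R.f t * R.f t = Matrix.scalar _ ((q * q : ℝ) : ℂ)) (htr : (R.f t).trace = 0) :
    ∃ P N : RData K' C m, Spl T j q R P N := by
  classical
  obtain ⟨W, e, hW, hWX⟩ := exists_W hnm hq hX htr
  have hWd := (Matrix.isUnit_iff_isUnit_det _).mp hW
  obtain ⟨V, hV⟩ : ∃ V, V = W⁻¹ := ⟨_, rfl⟩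
  have w1 : W * V = 1 := by rw [hV, Matrix.mul_nonsing_inv _ hWd]
  have w2 : V * W = 1 := by rw [hV, Matrix.nonsing_inv_mul _ hWd]
  have w3 : Wᴴ * Vᴴ = 1 := by rw [← Matrix.conjTranspose_mul, w2, Matrix.conjTranspose_one]
  let F : C →+* Matrix (Fin m ⊕ Fin m) (Fin m ⊕ Fin m) ℂ :=
    { toFun := fun c => (W * R.f (j c) * V).submatrix e.symm e.symm
      map_one' := by
        change (W * R.f (j 1) * V).submatrix e.symm e.symm = 1
        rw [map_one, map_one, mul_one, w1, Matrix.submatrix_one_equiv]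
      map_zero' := by
        change (W * R.f (j 0) * V).submatrix e.symm e.symm = 0
        rw [map_zero, map_zero, mul_zero, zero_mul]
        rfl
      map_mul' := fun x y => by
        change (W * R.f (j (x * y)) * V).submatrix e.symm e.symm =
          (W * R.f (j x) * V).submatrix e.symm e.symm * (W * R.f (j y) * V).submatrix e.symm e.symm
        rw [Matrix.submatrix_mul_equiv, map_mul, map_mul]
        congr 1
        calc W * (R.f (j x) * R.f (j y)) * V = W * R.f (j x) * 1 * R.f (j y) * V := by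
              rw [mul_one]; simp only [mul_assoc]
          _ = _ := by rw [← w2]; simp only [mul_assoc]
      map_add' := fun x y => by
        change (W * R.f (j (x + y)) * V).submatrix e.symm e.symm =
          (W * R.f (j x) * V).submatrix e.symm e.symm + (W * R.f (j y) * V).submatrix e.symm e.symm
        rw [map_add, map_add, mul_add, add_mul]
        rfl }
  have hF : ∀ c, F c = (W * R.f (j c) * V).submatrix e.symm e.symm := fun c => rfl
  have hFT : F (algebraMap L C T) = blk m q (-q) := by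
    rw [hF, h.jT, hWX, mul_assoc, w1, mul_one, Matrix.submatrix_submatrix]
    simp
  have hcomm : ∀ c, F c * blk m q (-q) = blk m q (-q) * F c := by
    intro c
    rw [← hFT, ← map_mul, ← map_mul]
    congr 1
    apply h.inj
    rw [map_mul, map_mul, h.jT, h.comm]
  obtain ⟨f, g, hfg⟩ := exists_pair F fun c => block_of_comm hq (hcomm c)
  -- the hermitian form
  obtain ⟨B, hB⟩ : ∃ B, B = (W * R.A * Wᴴ).submatrix e.symm e.symm := ⟨_, rfl⟩
  have hstar : ∀ c, F (star c) * B = B * (F c)ᴴ := by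
    intro c
    rw [hF, hF, hB, Matrix.conjTranspose_submatrix, Matrix.submatrix_mul_equiv,
      Matrix.submatrix_mul_equiv, Matrix.conjTranspose_mul, Matrix.conjTranspose_mul]
    congr 1
    calc W * R.f (j (star c)) * V * (W * R.A * Wᴴ) = W * R.f (j (star c)) * (V * W) * R.A * Wᴴ := by
          simp only [mul_assoc]
      _ = W * (R.f (star (j c)) * R.A) * Wᴴ := by rw [w2, mul_one, h.star, mul_assoc W]
      _ = W * R.A * (R.f (j c))ᴴ * Wᴴ := by rw [R.star_f]; simp only [mul_assoc]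
      _ = W * R.A * (Wᴴ * Vᴴ) * (R.f (j c))ᴴ * Wᴴ := by rw [w3, mul_one]
      _ = _ := by simp only [mul_assoc]
  have hBc : B * blk m q (-q) = blk m q (-q) * B := by
    have h1 := hstar (algebraMap L C T)
    have h2 : star (algebraMap L C T) = algebraMap L C T := by
      apply h.inj
      rw [h.star, h.jT, ht]
    rw [h2, hFT, blk_herm] at h1
    exact h1.symm
  obtain ⟨A₁, A₂, hAA⟩ := block_of_comm hq hBc
  have hBh : Bᴴ = B := by
    rw [hB, Matrix.conjTranspose_submatrix, Matrix.conjTranspose_mul, Matrix.conjTranspose_mul,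
      Matrix.conjTranspose_conjTranspose, R.hA, mul_assoc]
  have hBu : IsUnit B := by
    have h1 : IsUnit (W * R.A * Wᴴ) := (hW.mul R.unit).mul hW.star
    rw [Matrix.isUnit_iff_isUnit_det] at h1 ⊢
    rwa [hB, Matrix.det_submatrix_equiv_self]
  have hAh : A₁ᴴ = A₁ ∧ A₂ᴴ = A₂ := by
    rw [hAA, Matrix.fromBlocks_conjTranspose] at hBh
    obtain ⟨h3, -, -, h4⟩ := Matrix.fromBlocks_inj.mp hBh
    exact ⟨h3, h4⟩
  have hAu : IsUnit A₁ ∧ IsUnit A₂ := by
    rw [Matrix.isUnit_iff_isUnit_det, hAA, Matrix.det_fromBlocks_zero₂₁] at hBu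
    rw [Matrix.isUnit_iff_isUnit_det, Matrix.isUnit_iff_isUnit_det]
    exact ⟨isUnit_of_mul_isUnit_left hBu, isUnit_of_mul_isUnit_right hBu⟩
  have hsf : ∀ c, f (star c) * A₁ = A₁ * (f c)ᴴ ∧ g (star c) * A₂ = A₂ * (g c)ᴴ := by
    intro c
    have h1 := hstar c
    rw [hfg, hfg, hAA, Matrix.fromBlocks_conjTranspose, Matrix.fromBlocks_multiply,
      Matrix.fromBlocks_multiply] at h1
    simp only [Matrix.mul_zero, Matrix.zero_mul, add_zero, zero_add,
      Matrix.conjTranspose_zero] at h1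
    obtain ⟨h3, -, -, h4⟩ := Matrix.fromBlocks_inj.mp h1
    exact ⟨h3, h4⟩
  -- the central elements
  have hu : ∀ u : K, f (algebraMap K' C (algebraMap K K' u)) = Matrix.scalar (Fin m) (R.s u) ∧
      g (algebraMap K' C (algebraMap K K' u)) = Matrix.scalar (Fin m) (R.s u) := by
    intro u
    have h1 := hfg (algebraMap K' C (algebraMap K K' u))
    have h2 : F (algebraMap K' C (algebraMap K K' u)) =
        Matrix.fromBlocks (Matrix.scalar (Fin m) (R.s u)) 0 0
          (Matrix.scalar (Fin m) (R.s u)) := by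
      rw [hF, h.jK, R.hf]
      have h3 : W * (Matrix.scalar (Fin n)) (R.s u) * V = (Matrix.scalar (Fin n)) (R.s u) := by
        rw [← (Matrix.scalar_commute (R.s u) (fun _ => mul_comm _ _) W).eq, mul_assoc, w1, mul_one]
      rw [h3]
      ext i j
      rw [Matrix.submatrix_apply, Matrix.scalar_apply, Matrix.scalar_apply,
        Matrix.fromBlocks_diagonal]
      by_cases hij : i = j
      · subst hij
        rw [Matrix.diagonal_apply_eq, Matrix.diagonal_apply_eq]
        rcases i with i | i <;> rfl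
      · rw [Matrix.diagonal_apply_ne _ hij, Matrix.diagonal_apply_ne]
        exact fun h => hij (e.symm.injective h)
    rw [h2] at h1
    obtain ⟨h3, -, -, h4⟩ := Matrix.fromBlocks_inj.mp h1
    exact ⟨h3.symm, h4.symm⟩
  have hT : f (algebraMap K' C (algebraMap L K' T)) = Matrix.scalar (Fin m) (q : ℂ) ∧
      g (algebraMap K' C (algebraMap L K' T)) = Matrix.scalar (Fin m) (-(q : ℂ)) := by
    have h1 := hfg (algebraMap K' C (algebraMap L K' T))
    rw [← IsScalarTower.algebraMap_apply, hFT, blk] at h1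
    obtain ⟨h3, -, -, h4⟩ := Matrix.fromBlocks_inj.mp h1
    rw [← IsScalarTower.algebraMap_apply]
    rw [← h3, ← h4, Matrix.smul_one_eq_diagonal, Matrix.smul_one_eq_diagonal]
    exact ⟨rfl, rfl⟩
  have hmn : Nonempty (Fin m) := ⟨⟨0, hm⟩⟩
  obtain ⟨sP, hsP⟩ := exists_scal hm (f.comp (algebraMap K' C)) fun l => by
    obtain ⟨u, v, rfl⟩ := h.repK l
    refine ⟨R.s u + R.s v * q, ?_⟩
    change f (algebraMap K' C _) = _
    rw [map_add, map_mul, map_add, map_mul, (hu u).1, (hu v).1, hT.1, ← map_mul, ← map_add]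
  obtain ⟨sN, hsN⟩ := exists_scal hm (g.comp (algebraMap K' C)) fun l => by
    obtain ⟨u, v, rfl⟩ := h.repK l
    refine ⟨R.s u + R.s v * -q, ?_⟩
    change g (algebraMap K' C _) = _
    rw [map_add, map_mul, map_add, map_mul, (hu u).2, (hu v).2, hT.2, ← map_mul, ← map_add]
  have hsP' : ∀ l, f (algebraMap K' C l) = Matrix.scalar (Fin m) (sP l) := hsP
  have hsN' : ∀ l, g (algebraMap K' C l) = Matrix.scalar (Fin m) (sN l) := hsN
  have key : ∀ (A : Matrix (Fin m) (Fin m) ℂ), IsUnit A → ∀ x y : ℂ,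
      Matrix.scalar (Fin m) x * A = A * (Matrix.scalar (Fin m) y)ᴴ → x = star y := by
    intro A hA x y hxy
    rw [Matrix.scalar_apply, Matrix.scalar_apply, Matrix.diagonal_conjTranspose,
      ← Matrix.smul_eq_diagonal_mul] at hxy
    have h1 : A * Matrix.diagonal (star fun _ : Fin m => y) = star y • A := by
      ext i j
      rw [Matrix.mul_diagonal, Matrix.smul_apply, smul_eq_mul, mul_comm]
      rfl
    rw [h1] at hxy
    have h2 : (x - star y) • A = 0 := by rw [sub_smul, hxy, sub_self]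
    exact sub_eq_zero.mp ((smul_eq_zero.mp h2).resolve_right hA.ne_zero)
  refine ⟨{ s := sP, hs := fun z => ?_, f := f, hf := hsP', A := A₁, hA := hAh.1,
            unit := hAu.1, star_f := fun c => (hsf c).1 },
    { s := sN, hs := fun z => ?_, f := g, hf := hsN', A := A₂, hA := hAh.2,
      unit := hAu.2, star_f := fun c => (hsf c).2 }, ?_⟩
  · apply key A₁ hAu.1
    rw [← hsP', ← hsP', ← hsC, (hsf _).1]
  · apply key A₂ hAu.2
    rw [← hsN', ← hsN', ← hsC, (hsf _).2]
  · refine { blocks := ⟨W, e, hW, fun c => ?_, ?_⟩, PK := fun u => ?_, NK := fun u => ?_,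
             PT := ?_, NT := ?_ }
    · change W * R.f (j c) = (Matrix.fromBlocks (f c) 0 0 (g c)).submatrix e e * W
      rw [← hfg, hF, Matrix.submatrix_submatrix, Equiv.symm_comp_self, Matrix.submatrix_id_id,
        mul_assoc, mul_assoc, w2, mul_one]
    · change W * R.A * Wᴴ = (Matrix.fromBlocks A₁ 0 0 A₂).submatrix e e
      rw [← hAA, hB, Matrix.submatrix_submatrix, Equiv.symm_comp_self, Matrix.submatrix_id_id]
    · exact Matrix.scalar_inj.mp (by rw [← hsP', (hu u).1])
    · exact Matrix.scalar_inj.mp (by rw [← hsN', (hu u).2])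
    · exact Matrix.scalar_inj.mp (by rw [← hsP', hT.1])
    · exact Matrix.scalar_inj.mp (by rw [← hsN', hT.2])

end Vale.Agent.P011.Tpl.H541
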