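import Vale.Agent.P011.Tpl.H541.Fam
import Vale.Agent.P011.Tpl.H541.Cnt
import Vale.Agent.P011.Six.H183.QBase
import Vale.Agent.P011.Pow.VnA
import Vale.Agent.P011.One.WAd

/-!
Square roots whose centralizers have signature `(n - 1, 1)` at no real place.
-/

open NumberField IsDedekindDomain Module TensorProduct
open Vale.Agent.P011.RP (RData Complete)

set_option linter.unusedSectionVars false

namespace Vale.Agent.P011.Tpl.H541

open Vale.Agent.P011.Arith Vale.Agent.P011.Even Vale.Agent.P011.Two Vale.Agent.P011.One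
open Vale.Agent.P011.Pow Vale.Agent.P011.Six.H183

section num

variable {k : Type} [Field k] [NumberField k]

theorem div_mem {a c : kˣ} {v : HeightOneSpectrum (𝓞 k)} (h : a / c ∈ LS (v.valuation k))
    (hc : c ∉ LS (v.valuation k)) : a ∉ LS (v.valuation k) := by
  intro h1
  have h5 := Subgroup.mul_mem _ (Subgroup.inv_mem _ h) h1
  rw [inv_div, div_mul_cancel] at h5
  exact hc h5

theorem div_mem' {a c d : kˣ} {v : HeightOneSpectrum (𝓞 k)} (h : a / c ∈ LS (v.valuation k))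
    (hc : c * d ∉ LS (v.valuation k)) : a * d ∉ LS (v.valuation k) := by
  intro h1
  have h5 := Subgroup.mul_mem _ (Subgroup.inv_mem _ h) h1
  rw [inv_div, ← mul_assoc, div_mul_cancel] at h5
  exact hc h5

/-- A number with prescribed classes. -/
theorem exists_numc (d : kˣ) {S : Set (HeightOneSpectrum (𝓞 k))} (hS : S.Finite)
    (c : HeightOneSpectrum (𝓞 k) → kˣ)
    (hc : ∀ v ∈ S, c v ∉ LS (v.valuation k) ∧ c v * d ∉ LS (v.valuation k)) :
    ∃ a : kˣ, ¬ IsSquare (a : k) ∧ ¬ IsSquare ((a * d : kˣ) : k) ∧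
      (∀ v ∈ S, a / c v ∈ LS (v.valuation k)) ∧
      (∀ φ : k →+* ℝ, φ d < 0 → 0 < φ a) ∧ ∀ φ : k →+* ℝ, 0 < φ d → φ a < 0 := by
  classical
  obtain ⟨v₁⟩ := nonempty_prime (F := k)
  obtain ⟨u, hu, hu'⟩ := exists_class v₁ d
  obtain ⟨a, h1, h2⟩ := weak_approx (hS.insert v₁).toFinset (fun v => if v ∈ S then c v else u)
    (fun φ => if φ d < 0 then 1 else -1)
  have h3 : ∀ v ∈ S, a / c v ∈ LS (v.valuation k) := by
    intro v hv
    have h4 := h1 v ((Set.Finite.mem_toFinset _).mpr (Set.mem_insert_of_mem _ hv))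
    rwa [if_pos hv] at h4
  have h4 : a ∉ LS (v₁.valuation k) ∧ a * d ∉ LS (v₁.valuation k) := by
    by_cases hv : v₁ ∈ S
    · exact ⟨div_mem (h3 v₁ hv) (hc v₁ hv).1, div_mem' (h3 v₁ hv) (hc v₁ hv).2⟩
    · have h5 := h1 v₁ ((Set.Finite.mem_toFinset _).mpr (Set.mem_insert _ _))
      rw [if_neg hv] at h5
      exact ⟨div_mem h5 hu, div_mem' h5 (by rwa [mul_comm])⟩
  refine ⟨a, not_isSquare_of_LS h4.1, not_isSquare_of_LS h4.2, h3, ?_, ?_⟩
  · intro φ hφ
    have := h2 φ
    rw [if_pos hφ] at this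
    simpa using this
  · intro φ hφ
    have := h2 φ
    rw [if_neg hφ.not_gt] at this
    simpa using this

/-- Odd valuations. -/
theorem odd_of_div {a π : kˣ} {v : HeightOneSpectrum (𝓞 k)} (h : a / π ∈ LS (v.valuation k))
    (hπ : ∃ z : ℤ, v.valuation k (π : k) = WithZero.exp (2 * z + 1)) :
    ∃ z : ℤ, v.valuation k (a : k) = WithZero.exp (2 * z + 1) := by
  obtain ⟨y, hy⟩ := LS_even h
  obtain ⟨z, hz⟩ := hπ
  have hy0 : v.valuation k (y : k) ≠ 0 := (Valuation.ne_zero_iff _).mpr y.ne_zero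
  have h1 : v.valuation k (a : k) = v.valuation k (y : k) ^ 2 * v.valuation k (π : k) := by
    rw [← hy, ← map_mul]
    congr 1
    rw [Units.val_div_eq_div_val, div_mul_cancel₀ _ π.ne_zero]
  refine ⟨WithZero.log (v.valuation k (y : k)) + z, ?_⟩
  rw [h1, hz]
  nth_rewrite 1 [← WithZero.exp_log hy0]
  rw [← WithZero.exp_nsmul, ← WithZero.exp_add]
  congr 1
  rw [nsmul_eq_mul]
  push_cast
  ring

theorem not_LS_of_odd {a : kˣ} {v : HeightOneSpectrum (𝓞 k)}
    (h : ∃ z : ℤ, v.valuation k (a : k) = WithZero.exp (2 * z + 1)) :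
    a ∉ LS (v.valuation k) := by
  intro ha
  obtain ⟨y, hy⟩ := LS_even ha
  obtain ⟨z, hz⟩ := h
  have hy0 : v.valuation k (y : k) ≠ 0 := (Valuation.ne_zero_iff _).mpr y.ne_zero
  rw [hz, ← WithZero.exp_log hy0, ← WithZero.exp_nsmul] at hy
  have h1 := WithZero.exp_injective hy
  rw [nsmul_eq_mul] at h1
  push_cast at h1
  omega

end num

section ram

/-- The centralizer ramifies only over the ramified places. -/
theorem ram_over {k K D L K' C : Type}
    [Field k] [NumberField k] [Field K] [NumberField K] [DivisionRing D] [StarRing D]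
    [Algebra k K] [Algebra k D] [Algebra K D] [IsScalarTower k K D] [Algebra.IsCentral K D]
    [Field L] [NumberField L] [Algebra k L] [Field K'] [NumberField K']
    [Algebra K K'] [DivisionRing C] [StarRing C] [Algebra L K'] [Algebra L C] [Algebra K' C]
    [IsScalarTower L K' C] {t : D} {a : kˣ} {T : L} {j : C →+* D}
    (h : IsCent k K D L K' C t a T j) {m : ℕ} {w' : HeightOneSpectrum (𝓞 L)}
    (hw' : w' ∈ Ram L K' C m) :
    ∃ v ∈ Ram k K D (2 * m), w'.asIdeal.comap (algebraMap (𝓞 k) (𝓞 L)) = v.asIdeal := by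
  obtain ⟨w2, hw2, hns⟩ := hw'
  obtain ⟨v, hv⟩ := exists_below (F := k) w'
  refine ⟨v, ?_, hv⟩
  by_contra hcon
  obtain ⟨w, hw⟩ := exists_below (F := K) w2
  have hwv : w.asIdeal.comap (algebraMap (𝓞 k) (𝓞 K)) = v.asIdeal := by
    rw [← hw, ← hv, ← hw2, Ideal.comap_comap, Ideal.comap_comap]
    congr 1
    ext x
    exact h.comp x
  have h1 : W.Spl D (2 * m) ((algebraMap K' (w2.adicCompletion K')).comp (algebraMap K K')) := by
    have h2 : W.Spl D (2 * m) (algebraMap K (w.adicCompletion K)) := by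
      by_contra h3
      exact hcon ⟨w, hwv, h3⟩
    obtain ⟨g, -, hg⟩ := completion_map_cont hw
    have h3 := h2.comp g
    have h4 : g.comp (algebraMap K (w.adicCompletion K)) =
        (algebraMap K' (w2.adicCompletion K')).comp (algebraMap K K') := RingHom.ext hg
    rwa [h4] at h3
  have hT' : j (algebraMap K' C (algebraMap L K' T)) = t := by
    rw [← IsScalarTower.algebraMap_apply L K' C, h.jT]
  have htt : t * t = algebraMap K D (algebraMap k K a) := by
    rw [h.sq, IsScalarTower.algebraMap_apply k K D]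
  -- `t` is not central
  obtain ⟨y, hy⟩ : ∃ y : D, y * t ≠ t * y := by
    by_contra hcen
    push Not at hcen
    have h2 : t ∈ Subalgebra.center K D := by
      rw [Subalgebra.mem_center_iff]
      exact hcen
    rw [Algebra.IsCentral.center_eq_bot, Algebra.mem_bot] at h2
    obtain ⟨c, hc⟩ := h2
    have h3 : algebraMap K K' c = algebraMap L K' T := by
      apply (algebraMap K' C).injective
      apply j.injective
      rw [h.jK, hT', hc]
    have h4 : (⊥ : Subalgebra K K') = ⊤ := by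
      rw [eq_top_iff]
      intro l _
      obtain ⟨u, v', rfl⟩ := h.repK l
      rw [← h3, Algebra.mem_bot]
      exact ⟨u + v' * c, by rw [map_add, map_mul]⟩
    have h5 := Subalgebra.bot_eq_top_iff_finrank_eq_one.mp h4
    have h6 := h.rkK
    omega
  exact hns (spl_cent htt ((_root_.map_ne_zero _).mpr a.ne_zero) hy h.repK j h.comm hT'
    (by rw [← map_mul, h.sqT, h.comp]) h.jK _ h1)

end ram

section main

variable {k K D : Type} [Field k] [NumberField k] [Field K] [NumberField K] [StarRing K]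
  [DivisionRing D] [StarRing D] [Algebra k K] [Algebra k D] [Algebra K D] [IsScalarTower k K D]
  {d : kˣ} {s : K}

/-- Symmetric square roots in even degree, with prescribed signatures of the eigenspaces. -/
theorem exists_sym_sqrt2 (hS : Setting k K D d s) {m : ℕ} (hm : 2 ≤ m)
    (hdeg : finrank K D = (2 * m) ^ 2) :
    ∃ S : Set (HeightOneSpectrum (𝓞 k)), S.Finite ∧ ∀ a : kˣ, ¬ IsSquare (a : k) →
      ¬ IsSquare ((a * d : kˣ) : k) → (∀ φ : k →+* ℝ, φ d < 0 → 0 < φ a) →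
      (∀ φ : k →+* ℝ, 0 < φ d → φ a < 0) →
      (∀ v ∈ S, d ∉ LS (v.valuation k) → a * d ∉ LS (v.valuation k)) →
      (∀ v ∈ Ram k K D (2 * m), a ∉ LS (v.valuation k)) →
      ∀ (ι : Type) [Fintype ι] (R : ι → RData K D (2 * m)), Complete R → RP.Dense R →
      ∀ p p' : ι → ℕ, (∀ i, p i ≤ m) → (∀ i, p' i ≤ m) → (∀ i, Sig (R i).A (p i + p' i)) →
      ∃ σ, σ ∈ Xa D a ∧ ∀ i, Sig ((R i).f σ * (R i).A) (p i + (m - p' i)) := by
  have := hS.fin
  have := hS.cen
  obtain ⟨e', o, ho, hoe⟩ := Nat.exists_eq_two_pow_mul_odd (n := m) (by omega)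
  obtain ⟨e, he⟩ : ∃ e, e = e' + 1 := ⟨_, rfl⟩
  have hn : 2 * m = o * 2 ^ e := by
    rw [he, hoe, pow_succ]
    ring
  obtain ⟨S, hSf, h⟩ := exists_symm2 hS hm hdeg
  refine ⟨S, hSf, fun a ha had hr hr1 hSa hT => ?_⟩
  obtain ⟨x, hx⟩ := exists_sqrt_idt ho (show 1 ≤ e by omega) hn hdeg (algebraMap k K a) (by
    intro w hw
    obtain ⟨v, hv⟩ := exists_below (F := k) w
    have hd : d ∈ LS (v.valuation k) := by
      by_contra hd
      exact hw (idt_of_spl _ (spl_nonsplit hS (by omega) hdeg hd hv))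
    exact not_isSquare_split hS hd hv (hT v ⟨w, hv, fun h2 => hw (idt_of_spl _ h2)⟩)) (by
    intro he1 φ hφ
    exfalso
    have h1 : 0 < (φ.comp (algebraMap k K)) d := by
      have h2 : (φ.comp (algebraMap k K)) d = φ s ^ 2 := by
        rw [RingHom.comp_apply, ← map_pow, hS.sq]
      rw [h2]
      refine lt_of_le_of_ne (sq_nonneg _) fun h3 => ?_
      rw [← h2] at h3
      exact d.ne_zero ((map_eq_zero _).mp h3.symm)
    have h2 := hr1 (φ.comp (algebraMap k K)) h1
    rw [RingHom.comp_apply] at h2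
    exact lt_asymm h2 hφ)
  exact h a x (by rw [hx, ← IsScalarTower.algebraMap_apply]) ha had hr hSa

/-- The signatures of a division algebra with involution at a complete family. -/
theorem exists_sigs (hS : Setting k K D d s) {n : ℕ} (hn : 0 < n) (hdeg : finrank K D = n ^ 2) :
    ∃ (ι : Type) (_ : Fintype ι) (R : ι → RData K D n), Complete R ∧ RP.Dense R ∧
      ∃ P : ι → ℕ, ∀ i, Sig (R i).A (P i) ∧ P i ≤ n := by
  have := hS.fin
  have := hS.cen
  have hSM : StarModule K D := ⟨hS.star_smul⟩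
  have hK : ∃ z : K, star z ≠ z := by
    refine ⟨s, fun h => ?_⟩
    obtain ⟨c, hc⟩ := (hS.fix s).mp h
    exact hS.ns ⟨c, by
      apply (algebraMap k K).injective
      rw [map_mul, ← hS.sq, ← hc, pow_two]⟩
  obtain ⟨ι, hι, R, hcom, hd⟩ := RP.exists_family (D := D) hK hn hdeg
  choose P hP using fun i => sig_exists (G := (R i).A) (R i).hA (R i).unit
  refine ⟨ι, hι, R, hcom, hd, P, fun i => ⟨hP i, ?_⟩⟩
  have := (hP i).le
  rwa [Fintype.card_fin] at this

/-- The signatures of the centralizer of a symmetric square root. -/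
theorem sgd_cent (hS : Setting k K D d s) {m : ℕ} (hm : 1 < m) {a : kˣ} {t : D}
    (ht : t ∈ Xa D a) (hpos : ∀ φ : k →+* ℝ, φ d < 0 → 0 < φ a)
    {ι : Type} [Fintype ι] {R : ι → RData K D (2 * m)} (hR : Complete R) (hd : RP.Dense R)
    {x y : ι → ℕ} (hy : ∀ i, y i ≤ m) (h1 : ∀ i, Sig (R i).A (x i + y i))
    (h2 : ∀ i, Sig ((R i).f t * (R i).A) (x i + (m - y i)))
    (hx1 : ∀ i, x i ≠ 1 ∧ x i ≠ m - 1) (hy1 : ∀ i, y i ≠ 1 ∧ y i ≠ m - 1)
    {L K' C : Type} [Field L] [Field K'] [StarRing K']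
    [DivisionRing C] [StarRing C] [Algebra k L] [Algebra K K'] [Algebra L K'] [Algebra L C]
    [Algebra K' C] [IsScalarTower L K' C] {T : L} {j : C →+* D} {d' : Lˣ} {s' : K'}
    (hSC : Setting L K' C d' s') (hdC : finrank K' C = m ^ 2)
    (h : IsCent k K D L K' C t a T j) : Sgd K' C m := by
  have := hSC.fin
  have := hSC.cen
  have hSM : StarModule K' C := ⟨hSC.star_smul⟩
  obtain ⟨q, P, N, hPN, hcom, -⟩ := exists_fam hS hSC h (Xa_ne hS h.not_isSquare ht) ht.1
    (by omega) rfl hpos hR hd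
  refine sgd_of_family hm hdC hcom ?_
  have key : ∀ i, Sig (P i).A (x i) ∧ Sig (N i).A (y i) := fun i =>
    (hPN i).2.eq (hPN i).1 (hy i) (h1 i) (by rw [h.jT]; exact h2 i)
  rintro (i | i)
  · exact ⟨x i, (key i).1, hx1 i⟩
  · exact ⟨y i, (key i).2, hy1 i⟩

/-- **The first square root**, with prescribed classes: the centralizer has signature `(n - 1, 1)`
at no real place. -/
theorem exists_base3c (hS : Setting k K D d s) {l : ℕ} (hl : 3 ≤ l)
    (hdeg : finrank K D = (2 * (2 * l)) ^ 2) (hsg : Sgd K D (2 * (2 * l)))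
    {R : Set (HeightOneSpectrum (𝓞 k))} (hR : R.Finite) (c : HeightOneSpectrum (𝓞 k) → kˣ)
    (hc : ∀ v ∈ R ∪ Ram k K D (2 * (2 * l)),
      c v ∉ LS (v.valuation k) ∧ c v * d ∉ LS (v.valuation k)) :
    ∃ (a : kˣ) (t : D), t ∈ Xa D a ∧ ¬ IsSquare (a : k) ∧ ¬ IsSquare ((a * d : kˣ) : k) ∧
      (∀ v ∈ R ∪ Ram k K D (2 * (2 * l)), a / c v ∈ LS (v.valuation k)) ∧
      (∀ φ : k →+* ℝ, φ d < 0 → 0 < φ a) ∧ (∀ φ : k →+* ℝ, 0 < φ d → φ a < 0) ∧
      ∀ (L K' C : Type) [Field L] [Field K'] [StarRing K']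
        [DivisionRing C] [StarRing C] [Algebra k L] [Algebra K K'] [Algebra L K'] [Algebra L C]
        [Algebra K' C] [IsScalarTower L K' C] (T : L) (j : C →+* D) (d' : Lˣ) (s' : K'),
        Setting L K' C d' s' → finrank K' C = (2 * l) ^ 2 → IsCent k K D L K' C t a T j →
        Sgd K' C (2 * l) := by
  classical
  have i1 := hS.fin
  have i2 := hS.cen
  have hSM : StarModule K D := ⟨hS.star_smul⟩
  obtain ⟨S, hSf, h⟩ := exists_sym_sqrt2 hS (m := 2 * l) (by omega) hdeg
  obtain ⟨u, hu⟩ : ∃ u : HeightOneSpectrum (𝓞 k) → kˣ, ∀ v,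
      u v ∉ LS (v.valuation k) ∧ u v * d ∉ LS (v.valuation k) := by
    choose u hu1 hu2 using fun v : HeightOneSpectrum (𝓞 k) => exists_class v d
    exact ⟨u, fun v => ⟨hu1 v, by rw [mul_comm]; exact hu2 v⟩⟩
  obtain ⟨Q, hQ⟩ : ∃ Q, Q = R ∪ Ram k K D (2 * (2 * l)) := ⟨_, rfl⟩
  have hQf : Q.Finite := by
    rw [hQ]
    exact hR.union (ram_finite (k := k) (K := K) (D := D) (by omega) hdeg)
  rw [← hQ] at hc ⊢
  obtain ⟨a, ha, had, h3, h4, h5⟩ := exists_numc d (hQf.union hSf)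
    (fun v => if v ∈ Q then c v else u v) (by
      intro v _
      by_cases hv : v ∈ Q
      · simp only [if_pos hv]
        exact hc v hv
      · simp only [if_neg hv]
        exact hu v)
  have h6 : ∀ v ∈ Q ∪ S, a ∉ LS (v.valuation k) ∧ a * d ∉ LS (v.valuation k) := by
    intro v hv
    have h7 := h3 v hv
    by_cases hvQ : v ∈ Q
    · rw [if_pos hvQ] at h7
      exact ⟨div_mem h7 (hc v hvQ).1, div_mem' h7 (hc v hvQ).2⟩
    · rw [if_neg hvQ] at h7
      exact ⟨div_mem h7 (hu v).1, div_mem' h7 (hu v).2⟩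
  obtain ⟨ι, _, Rd, hcom, hd, P, hP⟩ := exists_sigs hS (n := 2 * (2 * l)) (by omega) hdeg
  have h7 : ∀ i, ∃ x y, x + y = P i ∧ x ≤ 2 * l ∧ y ≤ 2 * l ∧ (x ≠ 1 ∧ x ≠ 2 * l - 1) ∧
      (y ≠ 1 ∧ y ≠ 2 * l - 1) := by
    intro i
    obtain ⟨g1, g2⟩ := Sgd.ne (by omega) hsg (Rd i) (hP i).1
    have g3 := (hP i).2
    exact cnt_base hl (by omega) g1 (by omega)
  choose x y hxy hx hy hx1 hy1 using h7
  obtain ⟨t, ht, hts⟩ := h a ha had h4 h5 (fun v hv _ => (h6 v (Or.inr hv)).2)
    (fun v hv => (h6 v (Or.inl (hQ ▸ Or.inr hv))).1) ι Rd hcom hd x y hx hy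
    (fun i => by rw [hxy]; exact (hP i).1)
  refine ⟨a, t, ht, ha, had, fun v hv => ?_, h4, h5, ?_⟩
  · have h8 := h3 v (Or.inl hv)
    rwa [if_pos hv] at h8
  · intro L K' C _ _ _ _ _ _ _ _ _ _ _ T j d' s' hSC hdC hcent
    exact sgd_cent hS (by omega) ht h4 hcom hd hy (fun i => by rw [hxy]; exact (hP i).1) hts
      hx1 hy1 hSC hdC hcent

/-- **The first square root**: the centralizer has signature `(n - 1, 1)` at no real place, and
the places where the algebra stays a division algebra ramify. -/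
theorem exists_base3 (hS : Setting k K D d s) {l : ℕ} (hl : 3 ≤ l)
    (hdeg : finrank K D = (2 * (2 * l)) ^ 2) (hsg : Sgd K D (2 * (2 * l)))
    {R : Set (HeightOneSpectrum (𝓞 k))} (hR : R.Finite) :
    ∃ (a : kˣ) (t : D), t ∈ Xa D a ∧ ¬ IsSquare (a : k) ∧ ¬ IsSquare ((a * d : kˣ) : k) ∧
      (∀ v ∈ R ∪ Ram k K D (2 * (2 * l)),
        a ∉ LS (v.valuation k) ∧ a * d ∉ LS (v.valuation k)) ∧
      (∀ φ : k →+* ℝ, φ d < 0 → 0 < φ a) ∧ (∀ φ : k →+* ℝ, 0 < φ d → φ a < 0) ∧
      (∀ v ∈ Ram k K D (2 * (2 * l)), ∃ z : ℤ, v.valuation k (a : k) = WithZero.exp (2 * z + 1)) ∧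
      ∀ (L K' C : Type) [Field L] [Field K'] [StarRing K']
        [DivisionRing C] [StarRing C] [Algebra k L] [Algebra K K'] [Algebra L K'] [Algebra L C]
        [Algebra K' C] [IsScalarTower L K' C] (T : L) (j : C →+* D) (d' : Lˣ) (s' : K'),
        Setting L K' C d' s' → finrank K' C = (2 * l) ^ 2 → IsCent k K D L K' C t a T j →
        Sgd K' C (2 * l) := by
  classical
  have i1 := hS.fin
  have i2 := hS.cen
  choose u hu1 hu2 using fun v : HeightOneSpectrum (𝓞 k) => exists_class v d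
  have hπ : ∀ v : HeightOneSpectrum (𝓞 k), ∃ π : kˣ, ∃ z : ℤ,
      v.valuation k (π : k) = WithZero.exp (2 * z + 1) := by
    intro v
    obtain ⟨π, hπ⟩ := v.valuation_exists_uniformizer k
    have hπ0 : π ≠ 0 := by
      rintro rfl
      rw [map_zero] at hπ
      exact WithZero.exp_ne_zero hπ.symm
    exact ⟨Units.mk0 π hπ0, -1, by rw [Units.val_mk0, hπ]; rfl⟩
  choose π hπ using hπ
  have hc : ∀ v ∈ R ∪ Ram k K D (2 * (2 * l)),
      (if v ∈ Ram k K D (2 * (2 * l)) then π v else u v) ∉ LS (v.valuation k) ∧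
      (if v ∈ Ram k K D (2 * (2 * l)) then π v else u v) * d ∉ LS (v.valuation k) := by
    intro v _
    by_cases hv : v ∈ Ram k K D (2 * (2 * l))
    · rw [if_pos hv]
      have h1 := not_LS_of_odd (hπ v)
      refine ⟨h1, fun h2 => h1 ?_⟩
      exact (Subgroup.mul_mem_cancel_right _ (ram_split hS (by omega) hdeg hv)).mp h2
    · rw [if_neg hv]
      exact ⟨hu1 v, by rw [mul_comm]; exact hu2 v⟩
  obtain ⟨a, t, ht, ha, had, h3, h4, h5, h6⟩ := exists_base3c hS hl hdeg hsg hR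
    (fun v => if v ∈ Ram k K D (2 * (2 * l)) then π v else u v) hc
  refine ⟨a, t, ht, ha, had, fun v hv => ?_, h4, h5, fun v hv => ?_, h6⟩
  · exact ⟨div_mem (h3 v hv) (hc v hv).1, div_mem' (h3 v hv) (hc v hv).2⟩
  · have h7 := h3 v (Or.inr hv)
    rw [if_pos hv] at h7
    exact odd_of_div h7 (hπ v)

end main

/-- **The second square root**: all the centralizers have signature `(n - 1, 1)` at no real
place. -/
theorem exists_s2' {k K D L K' C : Type}
    [Field k] [NumberField k] [Field K] [NumberField K] [StarRing K] [DivisionRing D] [StarRing D]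
    [Algebra k K] [Algebra k D] [Algebra K D] [IsScalarTower k K D]
    [Field L] [NumberField L] [Algebra k L] [Field K'] [NumberField K'] [StarRing K']
    [Algebra K K'] [DivisionRing C] [StarRing C] [Algebra L K'] [Algebra L C] [Algebra K' C]
    [IsScalarTower L K' C]
    {d : kˣ} {s : K} {t : D} {a : kˣ} {T : L} {j : C →+* D}
    (hS : Setting k K D d s) (hSC : Setting L K' C (inc k L d) (algebraMap K K' s))
    (h : IsCent k K D L K' C t a T j) {l : ℕ} (hl : 3 ≤ l)
    (hdD : finrank K D = (2 * (2 * l)) ^ 2) (hdC : finrank K' C = (2 * l) ^ 2)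
    (ht : t ∈ Xa D a) (hpos : ∀ φ : k →+* ℝ, φ d < 0 → 0 < φ a)
    (hre : ∀ φ : k →+* ℝ, 0 < φ d → φ a < 0) (hsg : Sgd K' C (2 * l)) :
    ∃ N0 : Set (HeightOneSpectrum (𝓞 k)), N0.Finite ∧ Disjoint N0 (Ram k K D (2 * (2 * l))) ∧
      ∀ b : kˣ, ¬ IsSquare (algebraMap k L (b : k)) →
        ¬ IsSquare (algebraMap k L ((b * d : kˣ) : k)) → (∀ φ : k →+* ℝ, 0 < φ b) →
        (∀ v ∈ N0, b ∈ LS (v.valuation k)) →
        (∀ v ∈ Ram k K D (2 * (2 * l)), b ∉ LS (v.valuation k) ∧ a * b ∉ LS (v.valuation k)) →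
        ∃ s₂, s₂ ∈ Xa C (inc k L b) ∧
          ∀ (F F' E : Type) [Field F] [Field F'] [StarRing F']
            [DivisionRing E] [StarRing E] [Algebra k F] [Algebra K F'] [Algebra F F']
            [Algebra F E] [Algebra F' E] [IsScalarTower F F' E] (S : F) (jE : E →+* D)
            (d' : Fˣ) (s' : F'),
            Setting F F' E d' s' → finrank F' E = (2 * l) ^ 2 →
            IsCent k K D F F' E (j s₂) b S jE → Sgd F' E (2 * l) := by
  classical
  have i1 := hS.fin
  have i2 := hS.cen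
  have i3 := hSC.fin
  have i4 := hSC.cen
  obtain ⟨ι, _, Rd, hcom, hd, P₀, hP₀⟩ := exists_sigs hS (n := 2 * (2 * l)) (by omega) hdD
  obtain ⟨q, P, N, hPN, hcomC, hdC'⟩ := exists_fam hS hSC h (Xa_ne hS h.not_isSquare ht) ht.1
    (by omega) rfl hpos hcom hd
  have hSM : StarModule K' C := ⟨hSC.star_smul⟩
  choose u hu using fun i => sig_exists (G := (P i).A) (P i).hA (P i).unit
  choose w hw using fun i => sig_exists (G := (N i).A) (N i).hA (N i).unit
  have hch : ∀ i, ∃ a a' b b', (a ≤ l ∧ a' ≤ l ∧ a + a' = u i) ∧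
      (b ≤ l ∧ b' ≤ l ∧ b + b' = w i) ∧
      (a + b ≠ 1 ∧ a + b ≠ 2 * l - 1) ∧ (a' + b' ≠ 1 ∧ a' + b' ≠ 2 * l - 1) := by
    intro i
    have g1 := (hu i).le
    have g2 := (hw i).le
    rw [Fintype.card_fin] at g1 g2
    exact cnt_s hl g1 g2 (Sgd.ne (by omega) hsg (P i) (hu i)) (Sgd.ne (by omega) hsg (N i) (hw i))
  choose x x' y y' hx hy hxy hxy' using hch
  obtain ⟨S, hSf, hs⟩ := exists_sym_sqrt2 hSC (m := l) (by omega) hdC
  refine ⟨{v : HeightOneSpectrum (𝓞 k) | ∃ w ∈ S ∪ Ram L K' C (2 * l),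
      w.asIdeal.comap (algebraMap (𝓞 k) (𝓞 L)) = v.asIdeal} \ Ram k K D (2 * (2 * l)),
    (below_finite (hSf.union (ram_finite (by omega) hdC))).subset Set.sdiff_subset,
    Set.disjoint_sdiff_left, ?_⟩
  intro b hb hbd hreb hN hRb
  obtain ⟨s₂, hs₂, hsig⟩ := hs (inc k L b) hb (by
      have h1 : ((inc k L b * inc k L d : Lˣ) : L) = algebraMap k L ((b * d : kˣ) : k) := by
        rw [← map_mul]
        rfl
      rw [h1]
      exact hbd)
    (fun φ _ => hreb (φ.comp (algebraMap k L)))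
    (fun φ hφ => by
      exfalso
      have h1 := hre (φ.comp (algebraMap k L)) hφ
      have h2 : (φ.comp (algebraMap k L)) a = φ T * φ T := by
        rw [RingHom.comp_apply, ← h.sqT, map_mul]
      rw [h2] at h1
      exact absurd h1 (not_lt.mpr (mul_self_nonneg _)))
    (by
      intro w hw hdw
      obtain ⟨v, hv⟩ := Arith.exists_below (F := k) w
      by_cases hvR : v ∈ Ram k K D (2 * (2 * l))
      · exact absurd (LS_map hv (ram_split hS (by omega) hdD hvR)) hdw
      · have h1 : inc k L b ∈ LS (w.valuation L) := LS_map hv (hN v ⟨⟨w, Or.inl hw, hv⟩, hvR⟩)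
        exact fun h2 => hdw ((Subgroup.mul_mem_cancel_left _ h1).mp h2))
    (by
      intro w hw
      obtain ⟨v, hv, hwv⟩ := ram_over h (m := 2 * l) hw
      obtain ⟨h1, h2⟩ := hRb v hv
      exact ls_desc h.rkL h.not_isSquare (by rw [sq]; exact h.sqT) hwv h1 h2)
    (ι ⊕ ι) (Sum.elim P N) hcomC hdC' (Sum.elim x y) (Sum.elim x' y')
    (by
      rintro (i | i)
      · exact (hx i).1
      · exact (hy i).1)
    (by
      rintro (i | i)
      · exact (hx i).2.1
      · exact (hy i).2.1)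
    (by
      rintro (i | i)
      · change Sig (P i).A (x i + x' i)
        rw [(hx i).2.2]
        exact hu i
      · change Sig (N i).A (y i + y' i)
        rw [(hy i).2.2]
        exact hw i)
  have hs₁ : j s₂ ∈ Xa D b := by
    refine ⟨by rw [← h.star, hs₂.1], ?_⟩
    rw [← map_mul, hs₂.2]
    exact h.jk b
  refine ⟨s₂, hs₂, ?_⟩
  intro F F' E _ _ _ _ _ _ _ _ _ _ _ S jE d' s' hSE hdE hE
  have hsP : ∀ i, Sig ((P i).f s₂ * (P i).A) (x i + (l - x' i)) := fun i => hsig (Sum.inl i)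
  have hsN : ∀ i, Sig ((N i).f s₂ * (N i).A) (y i + (l - y' i)) := fun i => hsig (Sum.inr i)
  refine sgd_cent hS (m := 2 * l) (by omega) hs₁ (fun φ _ => hreb φ) hcom hd
    (x := fun i => x i + y i) (y := fun i => x' i + y' i) (fun i => ?_) (fun i => ?_)
    (fun i => ?_) hxy hxy' hSE hdE hE
  · have g1 := (hx i).2.1
    have g2 := (hy i).2.1
    omega
  · have g := (hPN i).2.sigA (hu i) (hw i)
    have g1 : x i + y i + (x' i + y' i) = u i + w i := by
      rw [← (hx i).2.2, ← (hy i).2.2]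
      ring
    rw [g1]
    exact g
  · have g := (hPN i).2.sig (hsP i) (hsN i)
    have g1 : x i + y i + (2 * l - (x' i + y' i)) = x i + (l - x' i) + (y i + (l - y' i)) := by
      have g1 := (hx i).2.1
      have g2 := (hy i).2.1
      omega
    rw [g1]
    exact g

end Vale.Agent.P011.Tpl.H541
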