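import Vale.Agent.P011.Tpl.Defs
import Vale.Agent.P011.Two2.SigCancel
import Vale.Agent.P011.Two2.CongNear
import Vale.Agent.P011.RP.Count

/-!
Signatures of hermitian matrices.
-/

open Module Matrix

set_option linter.unusedSectionVars false

namespace Vale.Agent.P011.Tpl.H541

open Vale.Agent.P011.RP Vale.Agent.P011.Two2

section sg

variable {ι κ : Type} [Fintype ι] [DecidableEq ι] [Fintype κ] [DecidableEq κ]

/-- The diagonal matrix of signs. -/
def sd (η : ι → ℤˣ) : Matrix ι ι ℂ := Matrix.diagonal fun i => ((((η i : ℤˣ) : ℤ) : ℝ) : ℂ)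

/-- The hermitian matrix has `p` positive directions. -/
def Sig (G : Matrix ι ι ℂ) (p : ℕ) : Prop :=
  ∃ (T : Matrix ι ι ℂ) (η : ι → ℤˣ), IsUnit T ∧ T * G * Tᴴ = sd η ∧
    Fintype.card {i // η i = 1} = p

variable {G G' : Matrix ι ι ℂ} {p p' : ℕ}

theorem sig_exists (hG : G.IsHermitian) (hu : IsUnit G) : ∃ p, Sig G p := by
  obtain ⟨S, η, hS, h⟩ := exists_sign_diag hG hu
  exact ⟨_, S, η, hS, h, rfl⟩

theorem Sig.unique (h : Sig G p) (h' : Sig G p') : p = p' := by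
  obtain ⟨T, η, hT, h1, rfl⟩ := h
  obtain ⟨T', η', hT', h1', rfl⟩ := h'
  exact le_antisymm (sylvester_le hT' h1' h1) (sylvester_le hT h1 h1')

theorem Sig.le (h : Sig G p) : p ≤ Fintype.card ι := by
  obtain ⟨T, η, hT, h1, rfl⟩ := h
  exact Fintype.card_subtype_le _

theorem Sig.congr {Q : Matrix ι ι ℂ} (h : Sig G p) (hQ : IsUnit Q) (h1 : Q * G * Qᴴ = G') :
    Sig G' p := by
  obtain ⟨T, η, hT, h2, h3⟩ := h
  obtain ⟨⟨Q, R, hQR, hRQ⟩, rfl⟩ := hQ
  have e1 : Qᴴ * Rᴴ = 1 := by rw [← Matrix.conjTranspose_mul, hRQ, Matrix.conjTranspose_one]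
  refine ⟨T * R, η, hT.mul ⟨⟨R, Q, hRQ, hQR⟩, rfl⟩, ?_, h3⟩
  rw [← h1, Matrix.conjTranspose_mul]
  calc T * R * (Q * G * Qᴴ) * (Rᴴ * Tᴴ) = T * (R * Q) * G * (Qᴴ * Rᴴ) * Tᴴ := by
        simp only [mul_assoc]
    _ = T * G * Tᴴ := by rw [hRQ, e1, mul_one, mul_one]
    _ = _ := h2

/-- Hermitian matrices of the same signature are congruent. -/
theorem Sig.cong (h : Sig G p) (h' : Sig G' p) :
    ∃ Q : Matrix ι ι ℂ, IsUnit Q ∧ Q * G * Qᴴ = G' := by
  obtain ⟨T, η, hT, h1, h2⟩ := h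
  obtain ⟨T', η', hT', h1', h2'⟩ := h'
  obtain ⟨σ, hσ⟩ := exists_perm (η := η) (η' := η') (by rw [h2, h2'])
  obtain ⟨P, hP, hP'⟩ := perm_cong hσ
  obtain ⟨⟨T', R, hTR, hRT⟩, rfl⟩ := hT'
  have e1 : T'ᴴ * Rᴴ = 1 := by rw [← Matrix.conjTranspose_mul, hRT, Matrix.conjTranspose_one]
  refine ⟨R * P * T, (IsUnit.mul ⟨⟨R, T', hRT, hTR⟩, rfl⟩ hP).mul hT, ?_⟩
  rw [Matrix.conjTranspose_mul, Matrix.conjTranspose_mul]
  calc R * P * T * G * (Tᴴ * (Pᴴ * Rᴴ)) = R * (P * (T * G * Tᴴ) * Pᴴ) * Rᴴ := by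
        simp only [mul_assoc]
    _ = R * (T' * G' * T'ᴴ) * Rᴴ := by
        rw [h1, sd, hP']
        rw [show T' * G' * T'ᴴ = sd η' from h1']
        rfl
    _ = (R * T') * G' * (T'ᴴ * Rᴴ) := by simp only [mul_assoc]
    _ = _ := by rw [hRT, e1, one_mul, mul_one]

theorem sig_sd (η : ι → ℤˣ) : Sig (sd η) (Fintype.card {i // η i = 1}) :=
  ⟨1, η, isUnit_one, by rw [one_mul, Matrix.conjTranspose_one, mul_one], rfl⟩

theorem Sig.isHermitian (h : Sig G p) : G.IsHermitian := by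
  obtain ⟨T, η, hT, h1, h2⟩ := h
  obtain ⟨⟨T, R, hTR, hRT⟩, rfl⟩ := hT
  have e1 : Tᴴ * Rᴴ = 1 := by rw [← Matrix.conjTranspose_mul, hRT, Matrix.conjTranspose_one]
  have h3 : G = R * sd η * Rᴴ := by
    rw [← h1]
    calc G = (R * T) * G * (Tᴴ * Rᴴ) := by rw [hRT, e1, one_mul, mul_one]
      _ = _ := by simp only [mul_assoc]
  have h4 : (sd η)ᴴ = sd η := by
    rw [sd, Matrix.diagonal_conjTranspose]
    congr 1
    funext i
    exact Complex.conj_ofReal _
  rw [Matrix.IsHermitian, h3, Matrix.conjTranspose_mul, Matrix.conjTranspose_mul,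
    Matrix.conjTranspose_conjTranspose, h4, mul_assoc]

theorem isUnit_sd (η : ι → ℤˣ) : IsUnit (sd η) := by
  rw [sd, Matrix.isUnit_diagonal, Pi.isUnit_iff]
  intro i
  rcases Int.units_eq_one_or (η i) with h | h <;> rw [h] <;> simp

theorem Sig.isUnit (h : Sig G p) : IsUnit G := by
  obtain ⟨T, η, hT, h1, h2⟩ := h
  obtain ⟨⟨T, R, hTR, hRT⟩, rfl⟩ := hT
  have e1 : Tᴴ * Rᴴ = 1 := by rw [← Matrix.conjTranspose_mul, hRT, Matrix.conjTranspose_one]
  have e2 : Rᴴ * Tᴴ = 1 := by rw [← Matrix.conjTranspose_mul, hTR, Matrix.conjTranspose_one]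
  have h3 : G = R * sd η * Rᴴ := by
    rw [← h1]
    calc G = (R * T) * G * (Tᴴ * Rᴴ) := by rw [hRT, e1, one_mul, mul_one]
      _ = _ := by simp only [mul_assoc]
  rw [h3]
  exact (IsUnit.mul ⟨⟨R, T, hRT, hTR⟩, rfl⟩ (isUnit_sd η)).mul ⟨⟨Rᴴ, Tᴴ, e2, e1⟩, rfl⟩

theorem Sig.neg (h : Sig G p) : Sig (-G) (Fintype.card ι - p) := by
  obtain ⟨T, η, hT, h1, h2⟩ := h
  refine ⟨T, fun i => -η i, hT, ?_, ?_⟩
  · rw [mul_neg, neg_mul, h1, sd, sd, Matrix.diagonal_neg]
    congr 1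
    funext i
    simp
  · rw [← h2, ← Fintype.card_subtype_compl]
    apply Fintype.card_congr
    refine Equiv.subtypeEquivRight fun i => ?_
    change -η i = 1 ↔ ¬ η i = 1
    rcases Int.units_eq_one_or (η i) with h | h <;> rw [h] <;> decide

/-- Diagonal matrices. -/
theorem sig_diag {e : ι → ℝ} (he : ∀ i, e i ≠ 0) :
    Sig (Matrix.diagonal fun i => (e i : ℂ)) (Fintype.card {i // 0 < e i}) := by
  classical
  obtain ⟨r, hr⟩ : ∃ r : ι → ℝ, ∀ i, r i = (Real.sqrt |e i|)⁻¹ := ⟨_, fun _ => rfl⟩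
  have hr0 : ∀ i, r i ≠ 0 := fun i => by
    rw [hr]
    exact inv_ne_zero (Real.sqrt_pos.mpr (abs_pos.mpr (he i))).ne'
  obtain ⟨η, hη⟩ : ∃ η : ι → ℤˣ, ∀ i, η i = if 0 < e i then 1 else -1 := ⟨_, fun _ => rfl⟩
  have hre : ∀ i, r i * e i * r i = (((η i : ℤˣ) : ℤ) : ℝ) := by
    intro i
    have h3 : 0 < Real.sqrt |e i| := Real.sqrt_pos.mpr (abs_pos.mpr (he i))
    have h4 := Real.mul_self_sqrt (abs_nonneg (e i))
    have h5 : r i * e i * r i = e i / |e i| := by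
      rw [← h4, hr]
      field_simp
    rw [h5, hη]
    split_ifs with h6
    · rw [abs_of_pos h6, div_self h6.ne']; simp
    · have h7 : e i < 0 := lt_of_le_of_ne (not_lt.mp h6) (he i)
      rw [abs_of_neg h7, div_neg, div_self h7.ne]; simp
  refine ⟨Matrix.diagonal fun i => (r i : ℂ), η, ?_, ?_, ?_⟩
  · rw [Matrix.isUnit_diagonal, Pi.isUnit_iff]
    intro i
    exact isUnit_iff_ne_zero.mpr (by exact_mod_cast hr0 i)
  · have hdh : (Matrix.diagonal (fun i => (r i : ℂ)))ᴴ = Matrix.diagonal (fun i => (r i : ℂ)) := by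
      rw [Matrix.diagonal_conjTranspose]
      congr 1
      funext i
      exact Complex.conj_ofReal _
    rw [hdh, Matrix.diagonal_mul_diagonal, Matrix.diagonal_mul_diagonal, sd]
    congr 1
    funext i
    rw [← hre i]
    push_cast
    ring
  · apply Fintype.card_congr
    refine Equiv.subtypeEquivRight fun i => ?_
    rw [hη]
    split_ifs with h
    · simp [h]
    · constructor
      · intro h2
        exact absurd h2 (by decide)
      · intro h2
        exact absurd h2 h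

theorem Sig.smul (h : Sig G p) {r : ℝ} (hr : 0 < r) : Sig ((r : ℂ) • G) p := by
  have h1 : 0 < Real.sqrt r := Real.sqrt_pos.mpr hr
  have h2 : ((Real.sqrt r : ℝ) : ℂ) * (Real.sqrt r : ℝ) = (r : ℂ) := by
    rw [← Complex.ofReal_mul, Real.mul_self_sqrt hr.le]
  have h3 : IsUnit (((Real.sqrt r : ℝ) : ℂ) • (1 : Matrix ι ι ℂ)) := by
    have h0 : ((Real.sqrt r : ℝ) : ℂ) ≠ 0 := by exact_mod_cast h1.ne'
    refine ⟨⟨_, ((Real.sqrt r : ℝ) : ℂ)⁻¹ • (1 : Matrix ι ι ℂ), ?_, ?_⟩, rfl⟩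
    · rw [smul_mul_smul_comm, mul_inv_cancel₀ h0, mul_one, one_smul]
    · rw [smul_mul_smul_comm, inv_mul_cancel₀ h0, mul_one, one_smul]
  refine h.congr h3 ?_
  rw [Matrix.conjTranspose_smul, Matrix.conjTranspose_one, smul_mul_assoc, one_mul,
    mul_smul_comm, mul_one, smul_smul]
  congr 1
  rw [Complex.star_def, Complex.conj_ofReal, h2]

theorem Sig.inv (h : Sig G p) : Sig G⁻¹ p := by
  have hu := h.isUnit
  have hd := (Matrix.isUnit_iff_isUnit_det _).mp hu
  have hH : Gᴴ = G := h.isHermitian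
  have h1 : IsUnit G⁻¹ := ⟨⟨G⁻¹, G, Matrix.nonsing_inv_mul _ hd, Matrix.mul_nonsing_inv _ hd⟩, rfl⟩
  refine h.congr h1 ?_
  rw [Matrix.conjTranspose_nonsing_inv, hH, mul_assoc, Matrix.mul_nonsing_inv _ hd, mul_one]

theorem Sig.reindex (h : Sig G p) (e : κ ≃ ι) : Sig (G.submatrix e e) p := by
  obtain ⟨T, η, hT, h1, h2⟩ := h
  refine ⟨T.submatrix e e, fun i => η (e i), ?_, ?_, ?_⟩
  · obtain ⟨⟨T, R, hTR, hRT⟩, rfl⟩ := hT
    refine ⟨⟨T.submatrix e e, R.submatrix e e, ?_, ?_⟩, rfl⟩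
    · rw [Matrix.submatrix_mul_equiv, hTR, Matrix.submatrix_one_equiv]
    · rw [Matrix.submatrix_mul_equiv, hRT, Matrix.submatrix_one_equiv]
  · rw [Matrix.conjTranspose_submatrix, Matrix.submatrix_mul_equiv, Matrix.submatrix_mul_equiv, h1,
      sd, sd, Matrix.submatrix_diagonal_equiv]
    rfl
  · rw [← h2]
    exact Fintype.card_congr (e.subtypeEquiv fun i => Iff.rfl)

theorem Sig.blocks {H : Matrix κ κ ℂ} {q : ℕ} (h : Sig G p) (h' : Sig H q) :
    Sig (Matrix.fromBlocks G 0 0 H) (p + q) := by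
  obtain ⟨T, η, hT, h1, h2⟩ := h
  obtain ⟨T', η', hT', h1', h2'⟩ := h'
  refine ⟨Matrix.fromBlocks T 0 0 T', Sum.elim η η', ?_, ?_, ?_⟩
  · obtain ⟨⟨T, R, hTR, hRT⟩, rfl⟩ := hT
    obtain ⟨⟨T', R', hTR', hRT'⟩, rfl⟩ := hT'
    refine ⟨⟨Matrix.fromBlocks T 0 0 T', Matrix.fromBlocks R 0 0 R', ?_, ?_⟩, rfl⟩
    · rw [Matrix.fromBlocks_multiply]
      simp only [Matrix.mul_zero, Matrix.zero_mul, add_zero, zero_add, hTR, hTR',
        Matrix.fromBlocks_one]
    · rw [Matrix.fromBlocks_multiply]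
      simp only [Matrix.mul_zero, Matrix.zero_mul, add_zero, zero_add, hRT, hRT',
        Matrix.fromBlocks_one]
  · rw [Matrix.fromBlocks_conjTranspose, Matrix.fromBlocks_multiply, Matrix.fromBlocks_multiply]
    simp only [Matrix.mul_zero, Matrix.zero_mul, add_zero, zero_add, Matrix.conjTranspose_zero]
    rw [h1, h1', sd, sd, sd, Matrix.fromBlocks_diagonal]
    congr 1
    funext i
    rcases i with i | i <;> rfl
  · rw [← h2, ← h2', ← Fintype.card_sum]
    apply Fintype.card_congr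
    refine (Equiv.subtypeSum).trans ?_
    exact Equiv.refl _

end sg

section lor

variable {n : ℕ} {A : Matrix (Fin n) (Fin n) ℂ}

theorem lor_of_sig (hn : 1 < n) {p : ℕ} (h : Sig A p) (hp : p = 1 ∨ p = n - 1) : Lor A := by
  classical
  obtain ⟨i₀⟩ : Nonempty (Fin n) := ⟨⟨0, by omega⟩⟩
  rcases hp with rfl | rfl
  · obtain ⟨Q, hQ, hQ'⟩ := h.cong (G' := Matrix.diagonal fun i => ((if i = i₀ then (1 : ℝ) else -1 : ℝ) : ℂ))
      (p := 1) (by
        have h1 := sig_diag (ι := Fin n) (e := fun i => if i = i₀ then (1 : ℝ) else -1)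
          (fun i => by split_ifs <;> norm_num)
        have h2 : Fintype.card {i : Fin n // 0 < (if i = i₀ then (1 : ℝ) else -1)} = 1 := by
          rw [Fintype.card_eq_one_iff]
          refine ⟨⟨i₀, by rw [if_pos rfl]; norm_num⟩, fun ⟨i, hi⟩ => Subtype.ext ?_⟩
          by_contra hne
          rw [if_neg hne] at hi
          linarith
        rwa [h2] at h1)
    refine ⟨Q, fun i => if i = i₀ then 1 else -1, i₀, hQ, hQ', ?_, fun i hi => ?_⟩
    · beta_reduce
      rw [if_pos rfl]; norm_num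
    · beta_reduce
      rw [if_neg hi, if_pos rfl]; norm_num
  · obtain ⟨Q, hQ, hQ'⟩ := h.cong (G' := Matrix.diagonal fun i => ((if i = i₀ then (-1 : ℝ) else 1 : ℝ) : ℂ))
      (p := n - 1) (by
        have h1 := sig_diag (ι := Fin n) (e := fun i => if i = i₀ then (-1 : ℝ) else 1)
          (fun i => by split_ifs <;> norm_num)
        have h2 : Fintype.card {i : Fin n // 0 < (if i = i₀ then (-1 : ℝ) else 1)} = n - 1 := by
          have h3 : Fintype.card {i : Fin n // ¬ i = i₀} = n - 1 := by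
            rw [Fintype.card_subtype_compl, Fintype.card_fin, Fintype.card_subtype_eq]
          rw [← h3]
          apply Fintype.card_congr
          refine Equiv.subtypeEquivRight fun i => ?_
          split_ifs with h4
          · simp [h4]
          · simp [h4]
        rwa [h2] at h1)
    refine ⟨Q, fun i => if i = i₀ then -1 else 1, i₀, hQ, hQ', ?_, fun i hi => ?_⟩
    · beta_reduce
      rw [if_pos rfl]; norm_num
    · beta_reduce
      rw [if_neg hi, if_pos rfl]; norm_num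

theorem sig_of_lor (h : Lor A) : Sig A 1 ∨ Sig A (n - 1) := by
  classical
  obtain ⟨Q, e, i₀, hQ, hQ', h0, h1⟩ := h
  have he : ∀ i, e i ≠ 0 := by
    intro i
    by_cases hi : i = i₀
    · rw [hi]; exact h0
    · intro h
      have := h1 i hi
      rw [h, zero_mul] at this
      exact lt_irrefl _ this
  have hs := sig_diag he
  have hsA : Sig A (Fintype.card {i // 0 < e i}) := by
    obtain ⟨⟨Q, R, hQR, hRQ⟩, rfl⟩ := hQ
    have e1 : Qᴴ * Rᴴ = 1 := by rw [← Matrix.conjTranspose_mul, hRQ, Matrix.conjTranspose_one]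
    refine hs.congr (Q := R) ⟨⟨R, Q, hRQ, hQR⟩, rfl⟩ ?_
    rw [← hQ']
    change R * (Q * A * Qᴴ) * Rᴴ = A
    calc R * (Q * A * Qᴴ) * Rᴴ = (R * Q) * A * (Qᴴ * Rᴴ) := by simp only [mul_assoc]
      _ = _ := by rw [hRQ, e1, one_mul, mul_one]
  rcases lt_or_gt_of_ne h0 with h2 | h2
  · right
    have h3 : Fintype.card {i // 0 < e i} = n - 1 := by
      have h3 : Fintype.card {i : Fin n // ¬ i = i₀} = n - 1 := by
        rw [Fintype.card_subtype_compl, Fintype.card_fin, Fintype.card_subtype_eq]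
      rw [← h3]
      apply Fintype.card_congr
      refine Equiv.subtypeEquivRight fun i => ?_
      constructor
      · rintro h4 rfl
        exact absurd h4 (not_lt.mpr h2.le)
      · intro hi
        have := h1 i hi
        by_contra h4
        nlinarith [not_lt.mp h4]
    rwa [h3] at hsA
  · left
    have h3 : Fintype.card {i // 0 < e i} = 1 := by
      rw [Fintype.card_eq_one_iff]
      refine ⟨⟨i₀, h2⟩, fun ⟨i, hi⟩ => Subtype.ext ?_⟩
      by_contra hne
      have := h1 i hne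
      nlinarith
    rwa [h3] at hsA

end lor

end Vale.Agent.P011.Tpl.H541
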